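import Mathlib

open MeasureTheory Metric Filter Topology
open scoped ENNReal

namespace Vale.Agent.N105C

theorem meas_strip (r : ℝ) : MeasurableSet {z : ℝ × ℝ | dist z.2 z.1 ≤ r} :=
  measurableSet_le (by fun_prop) measurable_const

theorem meas_ball (ν : Measure ℝ) [SFinite ν] (r : ℝ) : Measurable fun x => ν (closedBall x r) :=
  measurable_measure_prodMk_left (meas_strip r)

theorem int_ball (ν : Measure ℝ) [SFinite ν] (r : ℝ) :
    ∫⁻ x, ν (closedBall x r) = ENNReal.ofReal (2 * r) * ν Set.univ := by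
  have a := Measure.prod_apply (μ := volume) (ν := ν) (meas_strip r)
  have b := Measure.prod_apply_symm (μ := volume) (ν := ν) (meas_strip r)
  have c : ∀ y : ℝ, volume ((fun x : ℝ => (x, y)) ⁻¹' {z : ℝ × ℝ | dist z.2 z.1 ≤ r}) =
      ENNReal.ofReal (2 * r) := fun y => by
    rw [← Real.volume_closedBall y r]
    congr 1
    ext x
    simp [dist_comm]
  simp only [c, lintegral_const] at b
  rw [← b, a]
  rfl

theorem int_set (ν : Measure ℝ) [SFinite ν] {g : ℝ → ℝ≥0∞} (r : ℝ) :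
    ∫⁻ x, ∫⁻ y in closedBall x r, g y ∂ν = ENNReal.ofReal (2 * r) * ∫⁻ y, g y ∂ν := by
  have := int_ball (ν.withDensity g) r
  simpa only [withDensity_apply _ measurableSet_closedBall, withDensity_apply _ MeasurableSet.univ,
    Measure.restrict_univ] using this

variable {φ : ℝ≥0∞ → ℝ≥0∞} {D : ℝ≥0∞}

theorem dbl (hm : Monotone φ) (hD : ∀ t, φ (2 * t) ≤ D * φ t) (hD' : D ≠ ∞) {c : ℝ≥0∞}
    (hc : c ≠ ∞) : ∃ E : ℝ≥0∞, E ≠ ∞ ∧ ∀ t, φ (c * t) ≤ E * φ t := by
  obtain ⟨k, hk⟩ := ENNReal.exists_nat_gt hc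
  have a : ∀ (k : ℕ) t, φ (2 ^ k * t) ≤ D ^ k * φ t := fun k => by
    induction k with
    | zero => simp
    | succ k ih =>
      intro t
      rw [pow_succ', pow_succ', mul_assoc, mul_assoc]
      exact (hD _).trans (mul_le_mul_right (ih t) _)
  refine ⟨D ^ k, ENNReal.pow_ne_top hD', fun t => (hm ?_).trans (a k t)⟩
  gcongr
  exact hk.le.trans (by exact_mod_cast Nat.lt_two_pow_self.le)

theorem avg0 (hm : Monotone φ) (hD : ∀ t, φ (2 * t) ≤ D * φ t) (hD' : D ≠ ∞)
    (hf : ∀ t ≠ ∞, φ t ≠ ∞) {g : ℝ → ℝ≥0∞} (hg : ∫⁻ y, g y ≠ ∞) {s : ℝ} (hs : 0 < s) :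
    ∫⁻ x, (∫⁻ y in closedBall x s, g y) / ENNReal.ofReal (2 * s) *
      φ ((∫⁻ y in closedBall x s, g y) / ENNReal.ofReal (2 * s)) ≤ 2 * D * ∫⁻ y, g y * φ (g y) := by
  have e0 : ENNReal.ofReal (2 * s) ≠ 0 := by simpa using hs
  have e1 : ENNReal.ofReal (2 * s) ≠ ∞ := ENNReal.ofReal_ne_top
  rw [← ENNReal.mul_le_mul_iff_right e0 e1, ← lintegral_const_mul' _ _ e1, mul_left_comm,
    ← int_set, ← lintegral_const_mul' _ _ (by finiteness)]
  refine lintegral_mono fun x => ?_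
  have i : ∫⁻ y in closedBall x s, g y ≠ ∞ :=
    ne_top_of_le_ne_top hg (setLIntegral_le_lintegral _ _)
  set a := (∫⁻ y in closedBall x s, g y) / ENNReal.ofReal (2 * s) with ha
  have a1 : a ≠ ∞ := ENNReal.div_ne_top i e0
  have a2 := hf a a1
  have a3 : ENNReal.ofReal (2 * s) * (a * φ a) = ∫⁻ y in closedBall x s, g y * φ a := by
    rw [← mul_assoc, ha, ENNReal.mul_div_cancel e0 e1, lintegral_mul_const' _ _ a2]
  set u := ENNReal.ofReal (2 * s) * (a * φ a) with hu
  have a4 : u ≤ u / 2 + D * ∫⁻ y in closedBall x s, g y * φ (g y) := by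
    have : u / 2 = ∫⁻ _ in closedBall x s, a / 2 * φ a := by
      rw [setLIntegral_const, Real.volume_closedBall, hu, div_eq_mul_inv, div_eq_mul_inv a]
      ring
    rw [this, ← lintegral_const_mul' _ _ hD', ← lintegral_add_left measurable_const, a3]
    refine lintegral_mono fun y => ?_
    rcases le_total (g y) (a / 2) with h | h
    · exact (mul_le_mul_left h _).trans le_self_add
    · refine le_trans ?_ le_add_self
      rw [mul_left_comm]
      refine mul_le_mul_right ((hm ?_).trans (hD _)) _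
      rwa [ENNReal.div_le_iff' two_ne_zero ENNReal.ofNat_ne_top] at h
  have a5 : u / 2 ≠ ∞ := ENNReal.div_ne_top (by finiteness) two_ne_zero
  nth_rw 1 [← ENNReal.add_halves u] at a4
  rw [ENNReal.add_le_add_iff_left a5, ENNReal.div_le_iff' two_ne_zero ENNReal.ofNat_ne_top] at a4
  rwa [mul_assoc]

theorem avg (hm : Monotone φ) (hD : ∀ t, φ (2 * t) ≤ D * φ t) (hD' : D ≠ ∞)
    (hf : ∀ t ≠ ∞, φ t ≠ ∞) {c : ℝ} (hc : 0 < c) :
    ∃ E : ℝ≥0∞, E ≠ ∞ ∧ ∀ r : ℝ, 0 < r → ∀ g : ℝ → ℝ≥0∞, ∫⁻ y, g y ≠ ∞ →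
      ∫⁻ x, (∫⁻ y in closedBall x (c * r), g y) / ENNReal.ofReal r *
        φ ((∫⁻ y in closedBall x (c * r), g y) / ENNReal.ofReal r) ≤ E * ∫⁻ y, g y * φ (g y) := by
  obtain ⟨E, hE, H⟩ := dbl hm hD hD' (ENNReal.ofReal_ne_top (r := 2 * c))
  refine ⟨ENNReal.ofReal (2 * c) * E * (2 * D), by finiteness, fun r hr g hg => ?_⟩
  rw [mul_assoc]
  refine le_trans ?_ (mul_le_mul_right (avg0 hm hD hD' hf hg (s := c * r) (by positivity)) _)
  rw [← lintegral_const_mul' _ _ (by finiteness)]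
  refine lintegral_mono fun x => ?_
  have e : ∀ u : ℝ≥0∞, u / ENNReal.ofReal r =
      ENNReal.ofReal (2 * c) * (u / ENNReal.ofReal (2 * (c * r))) := fun u => by
    rw [← mul_assoc, ENNReal.ofReal_mul (q := r) (by positivity), ← mul_div_assoc,
      ENNReal.mul_div_mul_left _ _ (by simpa using hc) ENNReal.ofReal_ne_top]
  rw [e, mul_mul_mul_comm]
  exact mul_le_mul_right (H _) _

variable {ν : Measure ℝ} [IsProbabilityMeasure ν]

theorem spread (x s ρ : ℝ) :
    ENNReal.ofReal (2 * ρ) * ν (closedBall x s) ≤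
      ∫⁻ y in closedBall x (s + ρ), ν (closedBall y ρ) := by
  have a := int_ball (ν.restrict (closedBall x s)) ρ
  rw [Measure.restrict_apply_univ] at a
  rw [← a, ← lintegral_indicator measurableSet_closedBall]
  refine lintegral_mono fun y => ?_
  rw [Measure.restrict_apply measurableSet_closedBall]
  by_cases h : y ∈ closedBall x (s + ρ)
  · rw [Set.indicator_of_mem h]
    exact measure_mono Set.inter_subset_left
  · have : closedBall y ρ ∩ closedBall x s = ∅ := by
      refine Set.eq_empty_of_forall_notMem fun z hz => h ?_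
      have h1 := mem_closedBall.1 hz.1
      have h2 := mem_closedBall.1 hz.2
      have h3 := dist_triangle_left y x z
      rw [mem_closedBall]
      linarith
    simp [this]

theorem light {A W : Set ℝ} (hW : MeasurableSet W) {r : ℝ} (hr : 0 < r) {K : ℝ≥0∞}
    (h : ∀ x ∈ A, closedBall x r ⊆ W)
    (hl : ∀ x ∈ A, ν (closedBall x r) ≤ K * ENNReal.ofReal r) : ν A ≤ K * volume W := by
  have a := int_ball (ν.restrict A) (r / 2)
  rw [Measure.restrict_apply_univ, show 2 * (r / 2) = r by ring] at a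
  have e0 : ENNReal.ofReal r ≠ 0 := by simpa using hr
  rw [← ENNReal.mul_le_mul_iff_right e0 ENNReal.ofReal_ne_top, ← a, ← mul_assoc, mul_comm _ K,
    ← setLIntegral_const, ← lintegral_indicator hW]
  refine lintegral_mono fun y => ?_
  rw [Measure.restrict_apply measurableSet_closedBall]
  rcases (closedBall y (r / 2) ∩ A).eq_empty_or_nonempty with e | ⟨x, hx, hA⟩
  · simp [e]
  · have h1 := mem_closedBall.1 hx
    rw [Set.indicator_of_mem (h x hA (by rw [mem_closedBall, dist_comm]; linarith))]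
    refine (measure_mono (Set.inter_subset_left.trans ?_)).trans (hl x hA)
    exact closedBall_subset_closedBall' (by rw [dist_comm]; linarith)

theorem heavy {a : ℝ≥0∞} (s : ℝ) :
    a * volume {x | a ≤ ν (closedBall x s)} ≤ ENNReal.ofReal (2 * s) := by
  have := mul_meas_ge_le_lintegral (μ := volume) (meas_ball ν s) a
  rwa [int_ball, measure_univ, mul_one] at this

theorem J_le_I (hm : Monotone φ) {r : ℝ} (hr : 0 < r) :
    ∫⁻ x, ν (closedBall x (r / 2)) / ENNReal.ofReal r *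
      φ (ν (closedBall x (r / 2)) / ENNReal.ofReal r) ≤
      ∫⁻ y, φ (ν (closedBall y r) / ENNReal.ofReal r) ∂ν := by
  have a := int_set ν (g := fun y => φ (ν (closedBall y r) / ENNReal.ofReal r)) (r / 2)
  have e0 : ENNReal.ofReal r ≠ 0 := by simpa using hr
  have e1 : ENNReal.ofReal r ≠ ∞ := ENNReal.ofReal_ne_top
  rw [show 2 * (r / 2) = r by ring] at a
  rw [← ENNReal.mul_le_mul_iff_right e0 e1, ← a, ← lintegral_const_mul' _ _ e1]
  refine lintegral_mono fun x => ?_
  rw [← mul_assoc, ENNReal.mul_div_cancel e0 e1, mul_comm, ← setLIntegral_const]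
  refine setLIntegral_mono' measurableSet_closedBall fun y hy => hm ?_
  have h1 := mem_closedBall.1 hy
  exact ENNReal.div_le_div_right (measure_mono
    (closedBall_subset_closedBall' (by rw [dist_comm]; linarith))) _

theorem I_le_J (hm : Monotone φ) {r : ℝ} (hr : 0 < r) :
    ∫⁻ y, φ (ν (closedBall y r) / ENNReal.ofReal r) ∂ν ≤
      ∫⁻ x, ν (closedBall x (2 * r)) / ENNReal.ofReal r *
        φ (ν (closedBall x (2 * r)) / ENNReal.ofReal r) := by
  have a := int_set ν (g := fun y => φ (ν (closedBall y r) / ENNReal.ofReal r)) (r / 2)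
  have e0 : ENNReal.ofReal r ≠ 0 := by simpa using hr
  have e1 : ENNReal.ofReal r ≠ ∞ := ENNReal.ofReal_ne_top
  rw [show 2 * (r / 2) = r by ring] at a
  rw [← ENNReal.mul_le_mul_iff_right e0 e1, ← a, ← lintegral_const_mul' _ _ e1]
  refine lintegral_mono fun x => ?_
  rw [← mul_assoc, ENNReal.mul_div_cancel e0 e1, mul_comm]
  calc _ ≤ ∫⁻ _ in closedBall x (r / 2), φ (ν (closedBall x (2 * r)) / ENNReal.ofReal r) ∂ν := by
        refine setLIntegral_mono' measurableSet_closedBall fun y hy => hm ?_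
        have h1 := mem_closedBall.1 hy
        exact ENNReal.div_le_div_right (measure_mono
          (closedBall_subset_closedBall' (by linarith))) _
    _ ≤ _ := by
        rw [setLIntegral_const]
        gcongr
        linarith

theorem den_of_moment (hm : Monotone φ) (hD : ∀ t, φ (2 * t) ≤ D * φ t) (hD' : D ≠ ∞)
    (hf : ∀ t ≠ ∞, φ t ≠ ∞) {M : ℝ} (hM : 0 ≤ M) : ∃ E : ℝ≥0∞, E ≠ ∞ ∧
    ∀ (μ ν : Measure ℝ) [IsProbabilityMeasure ν] (r : ℝ), 0 < r →
      (∀ x, μ (closedBall x r) ≤ ν (closedBall x (r + M * r))) →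
      ∫⁻ x, μ (closedBall x r) / ENNReal.ofReal r * φ (μ (closedBall x r) / ENNReal.ofReal r) ≤
        E * ∫⁻ x, φ (ν (closedBall x r) / ENNReal.ofReal r) ∂ν := by
  obtain ⟨E, hE, H⟩ := avg hm hD hD' hf (c := M + 3 / 2) (by positivity)
  refine ⟨E, hE, fun μ ν _ r hr hc => ?_⟩
  have e0 : ENNReal.ofReal r ≠ 0 := by simpa using hr
  have e1 : ENNReal.ofReal r ≠ ∞ := ENNReal.ofReal_ne_top
  have i : ∀ m : Measure ℝ, ∫⁻ y, ν (closedBall y (r / 2)) / ENNReal.ofReal r ∂m =
      (∫⁻ y, ν (closedBall y (r / 2)) ∂m) / ENNReal.ofReal r := fun m =>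
    lintegral_mul_const' _ _ (ENNReal.inv_ne_top.2 e0)
  refine le_trans ?_ ((H r hr (fun y => ν (closedBall y (r / 2)) / ENNReal.ofReal r) ?_).trans
    (mul_le_mul_right (J_le_I hm hr) _))
  · refine lintegral_mono fun x => ?_
    have a : μ (closedBall x r) ≤ ∫⁻ y in closedBall x ((M + 3 / 2) * r),
        ν (closedBall y (r / 2)) / ENNReal.ofReal r := by
      have := spread (ν := ν) x (r + M * r) (r / 2)
      rw [show 2 * (r / 2) = r by ring, show r + M * r + r / 2 = (M + 3 / 2) * r by ring] at this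
      rw [i, ENNReal.le_div_iff_mul_le (.inl e0) (.inl e1), mul_comm]
      exact (mul_le_mul_right (hc x) _).trans this
    have b := ENNReal.div_le_div_right a (ENNReal.ofReal r)
    exact mul_le_mul' b (hm b)
  · rw [i, int_ball]
    exact ENNReal.div_ne_top (by finiteness) e0

theorem moment_of_den (hm : Monotone φ) (hD : ∀ t, φ (2 * t) ≤ D * φ t) (hD' : D ≠ ∞)
    (hf : ∀ t ≠ ∞, φ t ≠ ∞) {M : ℝ} (hM : 0 ≤ M) : ∃ E : ℝ≥0∞, E ≠ ∞ ∧
    ∀ (g : ℝ → ℝ≥0∞) (ν : Measure ℝ) [IsProbabilityMeasure ν] (r : ℝ), 0 < r → ∫⁻ y, g y ≠ ∞ →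
      (∀ x, ν (closedBall x (2 * r)) ≤ volume.withDensity g (closedBall x (2 * r + M * r))) →
      ∫⁻ x, φ (ν (closedBall x r) / ENNReal.ofReal r) ∂ν ≤ E * ∫⁻ x, g x * φ (g x) := by
  obtain ⟨E, hE, H⟩ := avg hm hD hD' hf (c := 2 + M) (by positivity)
  refine ⟨E, hE, fun g ν _ r hr hg hc => ((I_le_J hm hr).trans ?_).trans (H r hr g hg)⟩
  refine lintegral_mono fun x => ?_
  have a := ENNReal.div_le_div_right (hc x) (ENNReal.ofReal r)
  rw [withDensity_apply _ measurableSet_closedBall, ← add_mul] at a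
  exact mul_le_mul' a (hm a)

theorem couple {Ω : Type*} [MeasurableSpace Ω] {P : Measure Ω} {X Y : Ω → ℝ} (hX : Measurable X)
    (hY : Measurable Y) {δ : ℝ} (h : ∀ᵐ ω ∂P, |X ω - Y ω| ≤ δ) {A B : Set ℝ}
    (hA : MeasurableSet A) (hB : MeasurableSet B)
    (hAB : ∀ x ∈ A, ∀ y, |x - y| ≤ δ → y ∈ B) : P.map X A ≤ P.map Y B := by
  rw [Measure.map_apply hX hA, Measure.map_apply hY hB]
  refine measure_mono_ae ?_
  filter_upwards [h] with ω hω h2
  exact hAB _ h2 _ hω

theorem couple_ball {Ω : Type*} [MeasurableSpace Ω] {P : Measure Ω} {X Y : Ω → ℝ}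
    (hX : Measurable X) (hY : Measurable Y) {δ : ℝ} (h : ∀ᵐ ω ∂P, |X ω - Y ω| ≤ δ) (x s : ℝ) :
    P.map X (closedBall x s) ≤ P.map Y (closedBall x (s + δ)) := by
  refine couple hX hY h measurableSet_closedBall measurableSet_closedBall fun z hz y hy => ?_
  have h1 := mem_closedBall.1 hz
  have h2 := dist_triangle_left y x z
  rw [← Real.dist_eq] at hy
  rw [mem_closedBall]
  linarith

end Vale.Agent.N105C
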