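import Vale.Agent.N105C.Law
import Vale.Agent.N105C.Ball

open MeasureTheory Metric Filter Topology
open scoped ENNReal NNReal

namespace Vale.Agent.N105C

variable {p : Measure ℝ} [IsProbabilityMeasure p] {R lam : ℝ}

noncomputable def dE (p : Measure ℝ) (η : ℝ) (n : ℕ) (x : ℝ) : ℝ≥0∞ :=
  part p η n (closedBall x (η ^ n)) / ENNReal.ofReal (η ^ n)

theorem coe_dens {η : ℝ} (h : 0 < η) (n : ℕ) (x : ℝ) : (dens p η n x : ℝ≥0∞) = dE p η n x := by
  rw [dE, ← ofReal_measureReal, ← ENNReal.ofReal_div_of_pos (pow_pos h n)]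
  rfl

theorem meas_dens (η : ℝ) (n : ℕ) : Measurable (dE p η n) :=
  (meas_ball _ _).div_const _

theorem close' (h : ∀ᵐ x ∂p, |x| ≤ R) (h0 : 0 < lam) (h1 : lam < 1) :
    ∃ M : ℝ, 0 ≤ M ∧ ∀ᶠ n : ℕ in atTop, ∀ η : ℝ, lam ≤ η → η ≤ lam + lam ^ n →
      η ^ n ≤ ((1 + lam) / 2) ^ n ∧ (∀ᵐ ω ∂PP p, |YY lam ω - TT η n ω| ≤ M * η ^ n) ∧
      (∀ᵐ ω ∂PP p, |TT η n ω - YY lam ω| ≤ M * η ^ n) ∧
      (∀ x s, law p lam (closedBall x s) ≤ part p η n (closedBall x (s + M * η ^ n))) ∧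
      ∀ x s, part p η n (closedBall x s) ≤ law p lam (closedBall x (s + M * η ^ n)) := by
  obtain ⟨M, hM, H⟩ := close h h0 h1
  refine ⟨M, hM, H.mono fun n hn η a b => ?_⟩
  obtain ⟨c, d⟩ := hn η a b
  have d' : ∀ᵐ ω ∂PP p, |TT η n ω - YY lam ω| ≤ M * η ^ n := d.mono fun ω => by
    rw [abs_sub_comm]; exact id
  exact ⟨pow_le_pow_left₀ (h0.le.trans a) c n, d, d', couple_ball (meas_YY _) (meas_TT _ _) d,
    couple_ball (meas_TT _ _) (meas_YY _) d'⟩

theorem crowd_of_sing (h : ∀ᵐ x ∂p, |x| ≤ R) (h0 : 0 < lam) (h1 : lam < 1)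
    (hs : law p lam ⟂ₘ volume) {θ K : ℝ≥0∞} (hθ : θ < 1) (hK : K ≠ ∞) :
    ∀ᶠ n : ℕ in atTop, ∀ η : ℝ, lam ≤ η → η ≤ lam + lam ^ n →
      θ ≤ part p η n {x | K ≤ dE p η n x} := by
  obtain ⟨s, hsm, hs1, hs2⟩ := hs
  obtain ⟨θ', t1, t2⟩ := exists_between hθ
  obtain ⟨ε, e0, e1⟩ := ENNReal.exists_nnreal_pos_mul_lt hK (tsub_pos_iff_lt.2 t1).ne'
  obtain ⟨U, hsU, hU, hUv⟩ := Set.exists_isOpen_lt_of_lt (μ := volume) sᶜ ε
    (by rw [hs2]; exact_mod_cast e0)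
  have hU1 : θ' < law p lam U := by
    refine lt_of_lt_of_le ?_ (measure_mono hsU)
    rwa [prob_compl_eq_one_sub hsm, hs1, tsub_zero]
  obtain ⟨C, hCU, hC, hC1⟩ := hU.exists_lt_isCompact hU1
  obtain ⟨δ, hδ, hth⟩ := hC.exists_cthickening_subset_open hU hCU
  obtain ⟨M, hM, hev⟩ := close' h h0 h1
  have t : Tendsto (fun n : ℕ => (1 + M) * ((1 + lam) / 2) ^ n) atTop (𝓝 0) := by
    simpa using (tendsto_pow_atTop_nhds_zero_of_lt_one (r := (1 + lam) / 2) (by linarith)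
      (by linarith)).const_mul (1 + M)
  filter_upwards [hev, t.eventually (ge_mem_nhds hδ)] with n hn e2 η a b
  obtain ⟨c, d, -⟩ := hn η a b
  have hr : 0 < η ^ n := pow_pos (h0.trans_le a) n
  set r := η ^ n with hr'
  set C' := cthickening (M * r) C with hC'
  have m : MeasurableSet C' := isClosed_cthickening.measurableSet
  have f1 : law p lam C ≤ part p η n C' :=
    couple (meas_YY _) (meas_TT _ _) d hC.measurableSet m fun x hx y hy =>
      mem_cthickening_of_dist_le y x _ C hx (by rwa [dist_comm, Real.dist_eq])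
  have f2 : part p η n (C' \ {x | K ≤ dE p η n x}) ≤ K * volume U := by
    refine light hU.measurableSet hr (fun x hx => ?_) fun x hx => ?_
    · refine (closedBall_subset_cthickening hx.1 r).trans
        ((cthickening_cthickening_subset hr.le (by positivity) C).trans
          ((cthickening_mono ?_ C).trans hth))
      nlinarith
    · have h2 : dE p η n x ≤ K := (not_le.1 hx.2).le
      exact ENNReal.div_le_iff_le_mul (Or.inl (by simpa using hr)) (Or.inl ENNReal.ofReal_ne_top)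
        |>.1 h2
  have f3 : K * volume U ≤ θ' - θ := by
    rw [mul_comm] at e1
    exact (mul_le_mul_right hUv.le K).trans e1.le
  have f4 : θ' ≤ part p η n {x | K ≤ dE p η n x} + (θ' - θ) :=
    calc θ' ≤ part p η n C' := hC1.le.trans f1
      _ ≤ part p η n ({x | K ≤ dE p η n x} ∪ C' \ {x | K ≤ dE p η n x}) :=
          measure_mono fun x hx => by
            by_cases h' : x ∈ {x | K ≤ dE p η n x}
            exacts [Or.inl h', Or.inr ⟨hx, h'⟩]
      _ ≤ _ := (measure_union_le _ _).trans (add_le_add_right (f2.trans f3) _)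
  have f5 : θ' - θ ≠ ∞ := ENNReal.sub_ne_top (t2.trans ENNReal.one_lt_top).ne
  rw [← ENNReal.add_le_add_iff_right f5, add_tsub_cancel_of_le t1.le]
  exact f4

theorem not_ac_of_crowd (h : ∀ᵐ x ∂p, |x| ≤ R) (h0 : 0 < lam) (h1 : lam < 1) {θ : ℝ≥0∞}
    (hθ : 0 < θ) (H : ∀ K N : ℕ, ∃ n ≥ N, ∃ η : ℝ, lam ≤ η ∧ η ≤ lam + lam ^ n ∧
      θ ≤ part p η n {x | (K : ℝ≥0∞) ≤ dE p η n x}) : ¬ law p lam ≪ volume := by
  intro ac
  have e := Measure.withDensity_rnDeriv_eq _ _ ac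
  obtain ⟨δ, hδ, hd⟩ := exists_pos_setLIntegral_lt_of_measure_lt (μ := volume)
    (f := (law p lam).rnDeriv volume) (Measure.lintegral_rnDeriv_lt_top _ _).ne hθ.ne'
  obtain ⟨M, hM, hev⟩ := close' h h0 h1
  obtain ⟨N, hN⟩ := eventually_atTop.1 hev
  obtain ⟨K, hK⟩ := ENNReal.exists_nat_mul_gt hδ.ne'
    (ENNReal.ofReal_ne_top (r := 2 * (1 + M + M)))
  obtain ⟨n, hn, η, a, b, c⟩ := H K N
  obtain ⟨-, -, d, -, d'⟩ := hN n hn η a b
  have hr : 0 < η ^ n := pow_pos (h0.trans_le a) n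
  set r := η ^ n with hr'
  have e0 : ENNReal.ofReal r ≠ 0 := by simpa using hr
  set B := {x | K * ENNReal.ofReal r ≤ law p lam (closedBall x (r + M * r + M * r))} with hB
  have m : MeasurableSet B := measurableSet_le measurable_const (meas_ball _ _)
  have f1 : part p η n {x | (K : ℝ≥0∞) ≤ dE p η n x} ≤ law p lam B := by
    refine couple (meas_TT _ _) (meas_YY _) d (measurableSet_le measurable_const (meas_dens _ _)) m
      fun x hx y hy => ?_
    refine le_trans ?_ (d' y _)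
    refine ((ENNReal.le_div_iff_mul_le (Or.inl e0) (Or.inl ENNReal.ofReal_ne_top)).1 hx).trans
      (measure_mono (closedBall_subset_closedBall' ?_))
    rw [Real.dist_eq]
    linarith
  have f2 := heavy (ν := law p lam) (a := K * ENNReal.ofReal r) (r + M * r + M * r)
  rw [← hB, show 2 * (r + M * r + M * r) = r * (2 * (1 + M + M)) by ring, ENNReal.ofReal_mul hr.le,
    mul_comm _ (ENNReal.ofReal r), mul_assoc,
    ENNReal.mul_le_mul_iff_right e0 ENNReal.ofReal_ne_top] at f2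
  have f3 := hd B (lt_of_mul_lt_mul_left' (f2.trans_lt hK))
  rw [← withDensity_apply _ m, e] at f3
  exact (c.trans f1).not_gt f3

theorem large {θ : ℝ≥0∞} (hθ : 0 < θ) {η : ℝ} (hη : 1 / 2 ≤ η) {n K N : ℕ}
    (H : θ ≤ part p η n {x | ((max K (2 ^ N) : ℕ) : ℝ≥0∞) ≤ dE p η n x}) :
    N ≤ n ∧ θ ≤ part p η n {x | (K : ℝ≥0∞) ≤ dE p η n x} := by
  refine ⟨?_, H.trans (measure_mono fun x hx =>
    (Nat.cast_le.2 (le_max_left K (2 ^ N))).trans (b := ((max K (2 ^ N) : ℕ) : ℝ≥0∞)) hx)⟩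
  obtain ⟨x, hx⟩ := nonempty_of_measure_ne_zero (hθ.trans_le H).ne'
  have hr : 0 < η ^ n := by positivity
  have a := ((ENNReal.le_div_iff_mul_le (Or.inl (by simpa using hr))
    (Or.inl ENNReal.ofReal_ne_top)).1 hx).trans prob_le_one
  rw [← ENNReal.ofReal_natCast, ← ENNReal.ofReal_mul (by positivity), ENNReal.ofReal_le_one] at a
  have b : ((2 ^ N : ℕ) : ℝ) * (1 / 2) ^ n ≤ 1 := by
    refine le_trans ?_ a
    gcongr
    exact le_max_right _ _
  rw [one_div, inv_pow, ← div_eq_mul_inv, div_le_one (by positivity)] at b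
  have c : 2 ^ N ≤ 2 ^ n := by exact_mod_cast b
  exact (Nat.pow_le_pow_iff_right (by norm_num)).1 c

/-- a sequence of scales along which a property holds -/
theorem scales {P : ℝ → Prop} {ρ : ℝ} (h0 : 0 ≤ ρ) (h1 : ρ < 1)
    (H : ∃ᶠ n : ℕ in atTop, ∃ r : ℝ, 0 < r ∧ r ≤ ρ ^ n ∧ P r) :
    ∃ r : ℕ → ℝ, Tendsto r atTop (𝓝[>] 0) ∧ ∀ j, 0 < r j ∧ P (r j) := by
  obtain ⟨φ, hφ, a⟩ := extraction_of_frequently_atTop H
  choose r b c d using a
  refine ⟨r, tendsto_nhdsWithin_iff.2 ⟨?_, Eventually.of_forall b⟩, fun j => ⟨b j, d j⟩⟩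
  exact squeeze_zero (fun j => (b j).le) c
    ((tendsto_pow_atTop_nhds_zero_of_lt_one h0 h1).comp hφ.tendsto_atTop)

theorem ratio_le (μ : Measure ℝ) (x : ℝ) {r : ℝ} (hr : 0 < r) :
    μ (closedBall x r) / volume (closedBall x r) ≤ μ (closedBall x r) / ENNReal.ofReal r := by
  rw [Real.volume_closedBall]
  gcongr
  linarith

variable {φ : ℝ≥0∞ → ℝ≥0∞} {D : ℝ≥0∞}

theorem den_of_bdd (h : ∀ᵐ x ∂p, |x| ≤ R) (h0 : 0 < lam) (h1 : lam < 1) (hm : Monotone φ)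
    (hD : ∀ t, φ (2 * t) ≤ D * φ t) (hD' : D ≠ ∞) (hf : ∀ t ≠ ∞, φ t ≠ ∞)
    (hu : ∀ C ≠ ∞, ∃ K ≠ ∞, C ≤ φ K) {C : ℝ≥0∞} (hC : C ≠ ∞)
    (H : ∃ᶠ n : ℕ in atTop, ∃ η : ℝ, lam ≤ η ∧ η ≤ lam + lam ^ n ∧
      ∫⁻ x, φ (dE p η n x) ∂part p η n ≤ C) : law p lam ≪ volume ∧
      ∫⁻ x, (law p lam).rnDeriv volume x * φ ((law p lam).rnDeriv volume x) < ∞ := by
  constructor
  · refine (pure h h0 h1).resolve_left fun hs => ?_
    obtain ⟨K, hK, hK'⟩ := hu ((C + 1) * 2) (by finiteness)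
    obtain ⟨n, ⟨η, a, b, c⟩, d⟩ := (H.and_eventually (crowd_of_sing h h0 h1 hs (θ := 2⁻¹)
      (by norm_num) hK)).exists
    have e := mul_meas_ge_le_lintegral (μ := part p η n)
      (hm.measurable.comp (meas_dens (p := p) η n)) ((C + 1) * 2)
    have f : 2⁻¹ ≤ part p η n {x | (C + 1) * 2 ≤ φ (dE p η n x)} :=
      (d η a b).trans (measure_mono fun x hx => hK'.trans (hm hx))
    have g := ((mul_le_mul_right f _).trans e).trans c
    rw [mul_assoc, ENNReal.mul_inv_cancel (by norm_num) (by norm_num), mul_one] at g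
    exact (ENNReal.lt_add_right hC one_ne_zero).not_ge g
  · obtain ⟨M, hM, hev⟩ := close' h h0 h1
    obtain ⟨E, hE, hE'⟩ := den_of_moment hm hD hD' hf hM
    obtain ⟨r, t, hr⟩ := scales (P := fun r => ∫⁻ x, law p lam (closedBall x r) /
      ENNReal.ofReal r * φ (law p lam (closedBall x r) / ENNReal.ofReal r) ≤ E * C)
      (ρ := (1 + lam) / 2)
      (by linarith) (by linarith) ((H.and_eventually hev).mono fun n ⟨⟨η, a, b, c⟩, d⟩ => by
        obtain ⟨d1, -, -, d2, -⟩ := d η a b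
        have hr : 0 < η ^ n := pow_pos (h0.trans_le a) n
        exact ⟨η ^ n, hr, d1, (hE' _ _ _ hr fun x => d2 x _).trans (mul_le_mul_right c _)⟩)
    calc ∫⁻ x, (law p lam).rnDeriv volume x * φ ((law p lam).rnDeriv volume x)
        ≤ ∫⁻ x, liminf (fun j => law p lam (closedBall x (r j)) / ENNReal.ofReal (r j) *
            φ (law p lam (closedBall x (r j)) / ENNReal.ofReal (r j))) atTop := by
          refine lintegral_mono_ae ?_
          filter_upwards [Besicovitch.ae_tendsto_rnDeriv (law p lam) volume,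
            Measure.rnDeriv_lt_top (law p lam) volume] with x hx hx'
          by_cases z : (law p lam).rnDeriv volume x = 0
          · simp [z]
          refine le_liminf_of_le (by isBoundedDefault) ?_
          filter_upwards [(hx.comp t).eventually (lt_mem_nhds (ENNReal.half_lt_self z hx'.ne))]
            with j hj
          have a : (law p lam).rnDeriv volume x ≤
              law p lam (closedBall x (r j)) / ENNReal.ofReal (r j) := by
            rw [Function.comp, Real.volume_closedBall, ENNReal.ofReal_mul zero_le_two,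
              ENNReal.ofReal_ofNat, div_eq_mul_inv (law p lam _),
              ENNReal.mul_inv (.inl two_ne_zero) (.inl ENNReal.ofNat_ne_top), mul_left_comm,
              ← div_eq_mul_inv, ENNReal.div_eq_inv_mul] at hj
            exact (lt_of_mul_lt_mul_left' hj).le
          exact mul_le_mul' a (hm a)
      _ ≤ _ := lintegral_liminf_le fun j => ((meas_ball _ _).div_const _).mul
          (hm.measurable.comp ((meas_ball _ _).div_const _))
      _ ≤ E * C := liminf_le_of_frequently_le' (Frequently.of_forall fun j => (hr j).2)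
      _ < ∞ := ENNReal.mul_lt_top hE.lt_top hC.lt_top

theorem bdd_of_den (h : ∀ᵐ x ∂p, |x| ≤ R) (h0 : 0 < lam) (h1 : lam < 1) (hm : Monotone φ)
    (hD : ∀ t, φ (2 * t) ≤ D * φ t) (hD' : D ≠ ∞) (hf : ∀ t ≠ ∞, φ t ≠ ∞)
    {g : ℝ → ℝ≥0∞} (e : law p lam = volume.withDensity g)
    (hi : ∫⁻ x, g x * φ (g x) < ∞) : ∃ C : ℝ≥0∞, C ≠ ∞ ∧ ∀ᶠ n : ℕ in atTop, ∀ η : ℝ, lam ≤ η →
      η ≤ lam + lam ^ n → ∫⁻ x, φ (dE p η n x) ∂part p η n ≤ C := by
  obtain ⟨M, hM, hev⟩ := close' h h0 h1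
  obtain ⟨E, hE, hE'⟩ := moment_of_den hm hD hD' hf hM
  refine ⟨E * ∫⁻ x, g x * φ (g x), ENNReal.mul_ne_top hE hi.ne, hev.mono fun n hn η a b => ?_⟩
  obtain ⟨-, -, -, -, d⟩ := hn η a b
  refine hE' g _ _ (pow_pos (h0.trans_le a) n) ?_ fun x => e ▸ d x _
  rw [← setLIntegral_univ, ← withDensity_apply _ MeasurableSet.univ, ← e]
  exact measure_ne_top _ _

theorem sup_of_le (h : ∀ᵐ x ∂p, |x| ≤ R) (h0 : 0 < lam) (h1 : lam < 1) {C : ℝ≥0∞} (hC : C ≠ ∞)
    (e : law p lam ≤ C • volume) : ∃ C : ℝ≥0∞, C ≠ ∞ ∧ ∀ᶠ n : ℕ in atTop, ∀ η : ℝ, lam ≤ η →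
      η ≤ lam + lam ^ n → ∀ x, dE p η n x ≤ C := by
  obtain ⟨M, hM, hev⟩ := close' h h0 h1
  refine ⟨C * ENNReal.ofReal (2 * (1 + M)), by finiteness, hev.mono fun n hn η a b x => ?_⟩
  obtain ⟨-, -, -, -, d⟩ := hn η a b
  have hr : 0 < η ^ n := pow_pos (h0.trans_le a) n
  refine ENNReal.div_le_of_le_mul (((d x _).trans (e _)).trans_eq ?_)
  rw [Measure.smul_apply, Real.volume_closedBall, smul_eq_mul, mul_assoc,
    ← ENNReal.ofReal_mul (by positivity)]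
  congr 2
  ring

theorem le_of_sup (h : ∀ᵐ x ∂p, |x| ≤ R) (h0 : 0 < lam) (h1 : lam < 1) {C : ℝ≥0∞} (hC : C ≠ ∞)
    (H : ∃ᶠ n : ℕ in atTop, ∃ η : ℝ, lam ≤ η ∧ η ≤ lam + lam ^ n ∧ ∀ x, dE p η n x ≤ C) :
    ∃ C : ℝ≥0∞, C ≠ ∞ ∧ law p lam ≤ C • volume := by
  have ac := (den_of_bdd h h0 h1 (φ := id) monotone_id (D := 2) (fun _ => le_rfl) ENNReal.ofNat_ne_top
    (fun _ => id) (fun C a => ⟨C, a, le_rfl⟩) hC (H.mono fun n ⟨η, a, b, c⟩ =>
      ⟨η, a, b, by simpa using lintegral_mono (μ := part p η n) c⟩)).1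
  obtain ⟨M, hM, hev⟩ := close' h h0 h1
  refine ⟨C * ENNReal.ofReal (2 * (2 + M)), by finiteness, ?_⟩
  obtain ⟨r, t, hr⟩ := scales (P := fun r => ∀ x, law p lam (closedBall x r) /
    volume (closedBall x r) ≤ C * ENNReal.ofReal (2 * (2 + M))) (ρ := (1 + lam) / 2)
    (by linarith) (by linarith) ((H.and_eventually hev).mono fun n ⟨⟨η, a, b, c⟩, d⟩ => by
      obtain ⟨d1, -, -, d2, -⟩ := d η a b
      have hr : 0 < η ^ n := pow_pos (h0.trans_le a) n
      refine ⟨η ^ n, hr, d1, fun x => (ratio_le _ x hr).trans (ENNReal.div_le_of_le_mul ?_)⟩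
      have e0 : ENNReal.ofReal (η ^ n) ≠ 0 := by simpa using hr
      rw [← ENNReal.mul_le_mul_iff_right e0 ENNReal.ofReal_ne_top]
      calc _ ≤ ENNReal.ofReal (2 * η ^ n) * part p η n (closedBall x (η ^ n + M * η ^ n)) :=
            mul_le_mul' (ENNReal.ofReal_le_ofReal (by linarith)) (d2 x _)
        _ ≤ _ := spread x _ _
        _ ≤ ∫⁻ _ in closedBall x (η ^ n + M * η ^ n + η ^ n), C * ENNReal.ofReal (η ^ n) :=
            lintegral_mono fun y => (ENNReal.div_le_iff_le_mul (Or.inl e0)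
              (Or.inl ENNReal.ofReal_ne_top)).1 (c y)
        _ = _ := by
            rw [setLIntegral_const, Real.volume_closedBall,
              show 2 * (η ^ n + M * η ^ n + η ^ n) = η ^ n * (2 * (2 + M)) by ring,
              ENNReal.ofReal_mul hr.le]
            ring)
  rw [← Measure.withDensity_rnDeriv_eq _ _ ac, ← withDensity_const]
  refine withDensity_mono ?_
  filter_upwards [Besicovitch.ae_tendsto_rnDeriv (law p lam) volume] with x hx
  exact le_of_tendsto' (hx.comp t) fun j => (hr j).2 x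

/-- the extension of a gauge to `[0, ∞]` -/
noncomputable def ext (φ : ℝ≥0 → ℝ≥0) (t : ℝ≥0∞) : ℝ≥0∞ :=
  ⨆ (s : ℝ≥0) (_ : (s : ℝ≥0∞) ≤ t), (φ s : ℝ≥0∞)

theorem ext_coe {φ : ℝ≥0 → ℝ≥0} (h : Monotone φ) (t : ℝ≥0) : ext φ t = φ t :=
  le_antisymm (iSup₂_le fun _ a => ENNReal.coe_le_coe.2 (h (ENNReal.coe_le_coe.1 a)))
    (le_iSup₂_of_le t le_rfl le_rfl)

theorem ext_prop {φ : ℝ≥0 → ℝ≥0} (h : Gauge φ) : Monotone (ext φ) ∧
    (∃ D : ℝ≥0, ∀ t, ext φ (2 * t) ≤ D * ext φ t) ∧ (∀ t ≠ ∞, ext φ t ≠ ∞) ∧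
    ∀ C ≠ ∞, ∃ K ≠ ∞, C ≤ ext φ K := by
  obtain ⟨h1, h2, D, h3⟩ := h
  refine ⟨fun a b c => iSup₂_le fun s d => le_iSup₂_of_le s (d.trans c) le_rfl,
    ⟨D, fun t => iSup₂_le fun s d => ?_⟩, fun t a => ?_, fun C a => ?_⟩
  · have a := h3 (s / 2)
    rw [mul_div_cancel₀ _ two_ne_zero] at a
    refine (ENNReal.coe_le_coe.2 a).trans ?_
    rw [ENNReal.coe_mul]
    have b : ((s / 2 : ℝ≥0) : ℝ≥0∞) ≤ t → (φ (s / 2) : ℝ≥0∞) ≤ ext φ t := fun b =>
      le_iSup₂_of_le (s / 2) b le_rfl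
    refine mul_le_mul_right (b ?_) _
    rwa [ENNReal.coe_div two_ne_zero, ENNReal.coe_ofNat,
      ENNReal.div_le_iff' two_ne_zero ENNReal.ofNat_ne_top]
  · lift t to ℝ≥0 using a
    rw [ext_coe h1]
    exact ENNReal.coe_ne_top
  · lift C to ℝ≥0 using a
    obtain ⟨K, b⟩ := (h2.eventually_ge_atTop C).exists
    exact ⟨K, ENNReal.coe_ne_top, by rw [ext_coe h1]; exact_mod_cast b⟩

end Vale.Agent.N105C
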