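import Mathlib

open MeasureTheory Metric Filter
open scoped ENNReal NNReal

namespace Vale.Agent.N105C

/-- Pisot number: real algebraic integer `β > 1`, all other conjugates of modulus `< 1`. -/
def Pisot (β : ℝ) : Prop :=
  1 < β ∧ IsIntegral ℤ β ∧ ∀ z : ℂ, IsConjRoot ℚ (β : ℂ) z → z ≠ β → ‖z‖ < 1

/-- Salem number: real algebraic integer `β > 1`, all other conjugates of modulus `≤ 1`, one of
them of modulus `1`. -/
def Salem (β : ℝ) : Prop :=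
  1 < β ∧ IsIntegral ℤ β ∧ (∀ z : ℂ, IsConjRoot ℚ (β : ℂ) z → z ≠ β → ‖z‖ ≤ 1) ∧
    ∃ z : ℂ, IsConjRoot ℚ (β : ℂ) z ∧ ‖z‖ = 1

/-- The law of a fair sign `± 1`. -/
noncomputable def fair : Measure ℝ :=
  (2⁻¹ : ℝ≥0∞) • Measure.dirac 1 + (2⁻¹ : ℝ≥0∞) • Measure.dirac (-1)

/-- A digit law: a probability measure on `ℝ` carried by a bounded set. -/
def Digit (p : Measure ℝ) : Prop := IsProbabilityMeasure p ∧ ∃ R : ℝ, ∀ᵐ x ∂p, |x| ≤ R

/-- The law of `∑_{n ≥ 0} ε_n lam ^ n`, the `ε_n` being independent with law `p`. -/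
noncomputable def law (p : Measure ℝ) (lam : ℝ) : Measure ℝ :=
  (Measure.infinitePi fun _ : ℕ => p).map fun ω => ∑' n : ℕ, ω n * lam ^ n

/-- The law of the finite sum `∑_{i < n} ε_i η ^ i`. -/
noncomputable def part (p : Measure ℝ) (η : ℝ) (n : ℕ) : Measure ℝ :=
  (Measure.infinitePi fun _ : ℕ => p).map fun ω => ∑ i ∈ Finset.range n, ω i * η ^ i

/-- The roots in `(0, 1)` of the equations `∑_{k ∈ D} η ^ k = 1`, `D ⊆ {1, …, n}`. -/
def units (n : ℕ) : Set ℝ := {η | 0 < η ∧ η < 1 ∧ ∃ D ⊆ Finset.Icc 1 n, ∑ k ∈ D, η ^ k = 1}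

/-- The elements of `units n` in `[lam, lam + lam ^ n]`. -/
def near (lam : ℝ) (n : ℕ) : Set ℝ := units n ∩ Set.Icc lam (lam + lam ^ n)

/-- The mass given by `part p η n` to `[x - η ^ n, x + η ^ n]`, divided by `η ^ n`. -/
noncomputable def dens (p : Measure ℝ) (η : ℝ) (n : ℕ) (x : ℝ) : ℝ≥0 :=
  ((part p η n).real (closedBall x (η ^ n)) / η ^ n).toNNReal

/-- A gauge: a non-decreasing, unbounded, doubling function on `[0, ∞)`. -/
def Gauge (φ : ℝ≥0 → ℝ≥0) : Prop :=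
  Monotone φ ∧ Tendsto φ atTop atTop ∧ ∃ D : ℝ≥0, ∀ t, φ (2 * t) ≤ D * φ t

/-- The singular parameters in `(0, 1)`. -/
def sing (p : Measure ℝ) : Set ℝ := {lam | 0 < lam ∧ lam < 1 ∧ law p lam ⟂ₘ volume}

end Vale.Agent.N105C
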