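import Vale.Agent.N105C.Law

open MeasureTheory Filter Topology Real IntermediateField
open scoped ENNReal

namespace Vale.Agent.N105C

instance : IsProbabilityMeasure fair :=
  ⟨by simp [fair, ENNReal.inv_two_add_inv_two]⟩

theorem fair_bdd : ∀ᵐ x ∂fair, |x| ≤ 1 := by
  unfold fair
  rw [ae_add_measure_iff]
  exact ⟨Measure.ae_smul_measure (by simp) _, Measure.ae_smul_measure (by simp) _⟩

theorem char_fair (t : ℝ) : charFun fair t = (cos t : ℝ) := by
  have i : ∀ a : ℝ, Integrable (fun x : ℝ => Complex.exp (t * x * Complex.I))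
      ((2⁻¹ : ℝ≥0∞) • Measure.dirac a) := fun a =>
    (integrable_dirac (by simp)).smul_measure (by simp)
  rw [charFun_apply_real, fair, integral_add_measure (i _) (i _), integral_smul_measure,
    integral_smul_measure, integral_dirac, integral_dirac, Complex.ofReal_cos, Complex.cos]
  simp
  ring

theorem pisot_approx {β : ℝ} (h : Pisot β) (h2 : β < 2) :
    (∃ e : ℕ → ℝ, Summable e ∧ ∀ m, ∃ k : ℤ, |β ^ m - k| ≤ e m) ∧ ∀ j : ℕ, β ^ j ≠ 2 := by
  classical
  obtain ⟨h1, hi, hc⟩ := h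
  have hq : IsIntegral ℚ β := hi.tower_top
  have : FiniteDimensional ℚ ℚ⟮β⟯ := adjoin.finiteDimensional hq
  set g : ℚ⟮β⟯ := AdjoinSimple.gen ℚ β with hg
  set s0 : ℚ⟮β⟯ →ₐ[ℚ] ℂ := (Complex.ofRealAm.restrictScalars ℚ).comp ℚ⟮β⟯.val with hs0
  have e0 : s0 g = β := rfl
  have hs : ∀ σ : ℚ⟮β⟯ →ₐ[ℚ] ℂ, σ ≠ s0 → ‖σ g‖ < 1 := fun σ hσ => by
    refine hc _ ?_ fun e => hσ (adjoin_algHom_ext ℚ ?_)
    · rw [← e0, isConjRoot_def, minpoly.algHom_eq _ s0.injective, minpoly.algHom_eq _ σ.injective]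
    · rintro x rfl
      exact e
  have gi : IsIntegral ℤ g := (isIntegral_algHom_iff (ℚ⟮β⟯.val.restrictScalars ℤ)
    Subtype.val_injective).1 hi
  have tr : ∀ m : ℕ, ∃ k : ℤ, |β ^ m - k| ≤ ∑ σ ∈ Finset.univ.erase s0, ‖σ g‖ ^ m := fun m => by
    obtain ⟨k, hk⟩ := IsIntegrallyClosed.isIntegral_iff.1
      (Algebra.isIntegral_trace (L := ℚ) (gi.pow m))
    have a := trace_eq_sum_embeddings ℂ (K := ℚ) (x := g ^ m)
    rw [← hk, ← Finset.add_sum_erase _ _ (Finset.mem_univ s0), map_pow, e0] at a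
    refine ⟨k, ?_⟩
    have b : ((β ^ m - k : ℝ) : ℂ) = -∑ σ ∈ Finset.univ.erase s0, σ (g ^ m) := by
      simp only [eq_intCast, eq_ratCast, Rat.cast_intCast] at a
      push_cast
      linear_combination -a
    rw [← Real.norm_eq_abs, ← Complex.norm_real, b, norm_neg]
    refine (norm_sum_le _ _).trans_eq (Finset.sum_congr rfl fun σ _ => ?_)
    rw [map_pow, norm_pow]
  refine ⟨⟨_, summable_sum fun σ hσ => summable_geometric_of_lt_one (norm_nonneg _)
    (hs σ (Finset.ne_of_mem_erase hσ)), tr⟩, fun j hj => ?_⟩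
  obtain ⟨k, hk⟩ := tr 1
  rw [Finset.sum_eq_zero fun σ hσ => ?_, pow_one, abs_nonpos_iff, sub_eq_zero] at hk
  · rw [hk] at h1 h2
    have a : (1 : ℤ) < k := by exact_mod_cast h1
    have b : k < (2 : ℤ) := by exact_mod_cast h2
    omega
  · have a : g ^ j = 2 := Subtype.ext hj
    have b := congrArg (fun x => ‖σ x‖) a
    simp only [map_pow, norm_pow, map_ofNat, Complex.norm_ofNat] at b
    have c := pow_le_one₀ (n := j) (norm_nonneg _) (hs σ (Finset.ne_of_mem_erase hσ)).le
    linarith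

theorem abs_cos_near (x : ℝ) (k : ℤ) : ‖|cos (π * x)| - 1‖ ≤ π * |x - k| := by
  rw [Real.norm_eq_abs, ← abs_cos_int_mul_pi k]
  refine (abs_abs_sub_abs_le _ _).trans ((abs_cos_sub_cos_le _ _).trans_eq ?_)
  rw [mul_comm (k : ℝ), ← mul_sub, abs_mul, abs_of_pos pi_pos]

theorem prod_bound {β : ℝ} (h : Pisot β) (h2 : β < 2) :
    ∃ c : ℝ, 0 < c ∧ ∀ F : Finset ℤ, c ≤ ∏ m ∈ F, |cos (π * β ^ m)| := by
  obtain ⟨⟨e, he, H⟩, hj⟩ := pisot_approx h h2
  have h0 : 0 < β := by linarith [h.1]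
  have hl : β⁻¹ < 1 := inv_lt_one_of_one_lt₀ h.1
  have ne : ∀ m : ℤ, 0 < |cos (π * β ^ m)| := fun m => abs_pos.2 fun hz => by
    obtain ⟨k, hk⟩ := cos_eq_zero_iff.1 hz
    have a : β ^ m = (2 * k + 1) / 2 := mul_left_cancel₀ pi_ne_zero (by rw [hk]; ring)
    obtain ⟨j, rfl | rfl⟩ := m.eq_nat_or_neg
    · have b : IsIntegral ℤ (algebraMap ℚ ℝ ((2 * k + 1) / 2)) := by
        have := h.2.1.pow j
        rw [← zpow_natCast, a] at this
        simpa using this
      obtain ⟨n, hn⟩ := IsIntegrallyClosed.isIntegral_iff.1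
        ((isIntegral_algebraMap_iff (algebraMap ℚ ℝ).injective).1 b)
      have c : (2 * n : ℚ) = 2 * k + 1 := by rw [eq_intCast] at hn; linarith
      have d : 2 * n = 2 * k + 1 := by exact_mod_cast c
      omega
    · rw [zpow_neg, zpow_natCast] at a
      have b : 0 < (β ^ j)⁻¹ := by positivity
      have c : (β ^ j)⁻¹ ≤ 1 := inv_le_one_of_one_le₀ (one_le_pow₀ h.1.le)
      have d : (-1 : ℝ) < 2 * k := by linarith
      have d' : (2 * k : ℝ) ≤ 1 := by linarith
      have f : -1 < 2 * k := by exact_mod_cast d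
      have f' : 2 * k ≤ 1 := by exact_mod_cast d'
      obtain rfl : k = 0 := by omega
      exact hj j (inv_injective (by simpa using a))
  have s : Summable fun m : ℤ => |cos (π * β ^ m)| - 1 := by
    refine Summable.of_nat_of_neg (Summable.of_norm_bounded (he.mul_left π) fun m => ?_)
      (Summable.of_norm_bounded ((summable_geometric_of_lt_one (by positivity) hl).mul_left π)
        fun m => ?_)
    · obtain ⟨k, hk⟩ := H m
      rw [zpow_natCast]
      exact (abs_cos_near _ k).trans (mul_le_mul_of_nonneg_left hk pi_pos.le)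
    · refine (abs_cos_near _ 0).trans_eq ?_
      rw [Int.cast_zero, sub_zero, zpow_neg, zpow_natCast, inv_pow, abs_of_pos (by positivity)]
  have s2 := (summable_log_one_add_of_summable s).abs
  simp only [add_sub_cancel] at s2
  refine ⟨exp (-∑' m : ℤ, |log (|cos (π * β ^ m)|)|), exp_pos _, fun F => ?_⟩
  rw [← exp_log (Finset.prod_pos fun m _ => ne m), log_prod fun m _ => (ne m).ne', exp_le_exp,
    neg_le]
  refine le_trans ?_ (s2.sum_le_tsum F fun _ _ => abs_nonneg _)
  rw [← Finset.sum_neg_distrib]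
  exact Finset.sum_le_sum fun m _ => neg_le_abs _

theorem riemann {μ : Measure ℝ} [IsFiniteMeasure μ] (h : μ ≪ volume) :
    Tendsto (charFun μ) atTop (𝓝 0) := by
  have a := (Real.tendsto_integral_exp_smul_cocompact
    (fun x => ((μ.rnDeriv volume x).toReal : ℂ))).comp
    ((tendsto_neg_atTop_atBot.comp (tendsto_id.atTop_div_const two_pi_pos)).mono_right
      atBot_le_cocompact)
  refine a.congr fun t => ?_
  rw [charFun_apply_real, ← integral_rnDeriv_smul h]
  refine integral_congr_ae (ae_of_all _ fun x => ?_)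
  simp only [Function.comp, id, Circle.smul_def, Real.fourierChar_apply, smul_eq_mul,
    Complex.real_smul]
  rw [mul_comm]
  congr 3
  push_cast
  have : (π : ℂ) ≠ 0 := by exact_mod_cast pi_ne_zero
  field_simp

theorem erdos {lam : ℝ} (h0 : 1 / 2 < lam) (h : Pisot lam⁻¹) : law fair lam ⟂ₘ volume := by
  have l0 : 0 < lam := by linarith
  have l1 : lam < 1 := (one_lt_inv₀ l0).1 h.1
  obtain ⟨c, hc, H⟩ := prod_bound h (inv_lt_of_inv_lt₀ (by norm_num) (by linarith))
  refine (pure fair_bdd l0 l1).resolve_right fun ac => ?_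
  have t := ((riemann ac).comp ((tendsto_pow_atTop_atTop_of_one_lt h.1).const_mul_atTop
    pi_pos)).norm
  rw [norm_zero] at t
  obtain ⟨N, hN⟩ := (t.eventually (gt_mem_nhds hc)).exists
  refine hN.not_ge (ge_of_tendsto' (char_tend fair_bdd l0.le l1 _).norm fun n => ?_)
  refine (H ((Finset.range n).image fun i : ℕ => (N : ℤ) - i)).trans_eq ?_
  rw [Finset.prod_image fun i _ j _ e => by simpa using e, norm_prod]
  refine Finset.prod_congr rfl fun i _ => ?_
  rw [char_fair, Complex.norm_real, Real.norm_eq_abs, zpow_sub₀ (by positivity), zpow_natCast,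
    zpow_natCast, inv_pow lam i, div_inv_eq_mul]
  congr 2
  ring

end Vale.Agent.N105C
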