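import Vale.Agent.N105C.Defs

open MeasureTheory Metric Filter Topology ProbabilityTheory
open scoped ENNReal

namespace Vale.Agent.N105C

noncomputable abbrev PP (p : Measure ℝ) : Measure (ℕ → ℝ) := Measure.infinitePi fun _ : ℕ => p

noncomputable def YY (lam : ℝ) (ω : ℕ → ℝ) : ℝ := ∑' n : ℕ, ω n * lam ^ n

noncomputable def TT (η : ℝ) (n : ℕ) (ω : ℕ → ℝ) : ℝ := ∑ i ∈ Finset.range n, ω i * η ^ i

theorem law_eq (p : Measure ℝ) (lam : ℝ) : law p lam = (PP p).map (YY lam) := rfl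

theorem part_eq (p : Measure ℝ) (η : ℝ) (n : ℕ) : part p η n = (PP p).map (TT η n) := rfl

theorem meas_YY (lam : ℝ) : Measurable (YY lam) :=
  Measurable.tsum fun n => by fun_prop

theorem meas_TT (η : ℝ) (n : ℕ) : Measurable (TT η n) := by
  unfold TT
  fun_prop

instance (p : Measure ℝ) [IsProbabilityMeasure p] (lam : ℝ) : IsProbabilityMeasure (law p lam) :=
  Measure.isProbabilityMeasure_map (meas_YY lam).aemeasurable

instance (p : Measure ℝ) [IsProbabilityMeasure p] (η : ℝ) (n : ℕ) :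
    IsProbabilityMeasure (part p η n) :=
  Measure.isProbabilityMeasure_map (meas_TT η n).aemeasurable

variable {p : Measure ℝ} [IsProbabilityMeasure p] {R lam : ℝ}

theorem ae_bdd (h : ∀ᵐ x ∂p, |x| ≤ R) : ∀ᵐ ω ∂PP p, ∀ n, |ω n| ≤ R :=
  ae_all_iff.2 fun n =>
    (measurePreserving_eval_infinitePi (fun _ : ℕ => p) n).quasiMeasurePreserving.ae h

theorem summ {ω : ℕ → ℝ} (h : ∀ n, |ω n| ≤ R) (h0 : 0 ≤ lam) (h1 : lam < 1) :
    Summable fun n => ω n * lam ^ n := by
  refine Summable.of_norm_bounded ((summable_geometric_of_lt_one h0 h1).mul_left R) fun n => ?_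
  rw [norm_mul, Real.norm_eq_abs, Real.norm_of_nonneg (pow_nonneg h0 n)]
  exact mul_le_mul_of_nonneg_right (h n) (pow_nonneg h0 n)

theorem tend_TT {ω : ℕ → ℝ} (h : ∀ n, |ω n| ≤ R) (h0 : 0 ≤ lam) (h1 : lam < 1) :
    Tendsto (fun n => TT lam n ω) atTop (𝓝 (YY lam ω)) :=
  (summ h h0 h1).hasSum.tendsto_sum_nat

theorem tail {ω : ℕ → ℝ} (h : ∀ n, |ω n| ≤ R) (h0 : 0 ≤ lam) (h1 : lam < 1) (n : ℕ) :
    |YY lam ω - TT lam n ω| ≤ R * (1 - lam)⁻¹ * lam ^ n := by
  have e := (summ h h0 h1).sum_add_tsum_nat_add n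
  have e2 : YY lam ω - TT lam n ω = ∑' i : ℕ, ω (i + n) * lam ^ (i + n) := by
    unfold YY TT
    rw [← e]
    ring
  rw [e2, ← Real.norm_eq_abs]
  have hs := ((hasSum_geometric_of_lt_one h0 h1).mul_left R).mul_right (lam ^ n)
  refine tsum_of_norm_bounded hs fun i => ?_
  rw [norm_mul, Real.norm_eq_abs, Real.norm_of_nonneg (pow_nonneg h0 _), pow_add, mul_assoc]
  exact mul_le_mul_of_nonneg_right (h _) (by positivity)

theorem lip {ρ : ℝ} (h0 : 0 < ρ) (h1 : ρ < 1) (hR : 0 ≤ R) :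
    ∃ L : ℝ, 0 ≤ L ∧ ∀ x y : ℝ, |x| ≤ ρ → |y| ≤ ρ → ∀ (n : ℕ) (ω : ℕ → ℝ), (∀ i, |ω i| ≤ R) →
      |TT x n ω - TT y n ω| ≤ L * |x - y| := by
  have hs : Summable fun i : ℕ => (i : ℝ) ^ 1 * ρ ^ i :=
    summable_pow_mul_geometric_of_norm_lt_one 1 (by rwa [Real.norm_of_nonneg h0.le])
  have hL : 0 ≤ ∑' i : ℕ, (i : ℝ) ^ 1 * ρ ^ i := tsum_nonneg fun i => by positivity
  refine ⟨R * (ρ⁻¹ * ∑' i : ℕ, (i : ℝ) ^ 1 * ρ ^ i), by positivity, fun x y hx hy n ω hω => ?_⟩
  have h2 : ∀ i : ℕ, |x ^ i - y ^ i| ≤ ρ⁻¹ * ((i : ℝ) ^ 1 * ρ ^ i) * |x - y| := by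
    intro i
    refine (abs_pow_sub_pow_le x y i).trans ?_
    rcases i with _ | i
    · simp
    · have h3 : max |x| |y| ^ (i + 1 - 1) ≤ ρ ^ i := by
        rw [Nat.add_sub_cancel]
        exact pow_le_pow_left₀ (le_max_of_le_left (abs_nonneg _)) (max_le hx hy) i
      calc |x - y| * ((i + 1 : ℕ) : ℝ) * max |x| |y| ^ (i + 1 - 1)
          ≤ |x - y| * ((i + 1 : ℕ) : ℝ) * ρ ^ i := by gcongr
        _ = _ := by rw [pow_succ ρ i]; field_simp
  unfold TT
  rw [← Finset.sum_sub_distrib]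
  calc |∑ i ∈ Finset.range n, (ω i * x ^ i - ω i * y ^ i)|
      ≤ ∑ i ∈ Finset.range n, |ω i * x ^ i - ω i * y ^ i| := Finset.abs_sum_le_sum_abs _ _
    _ ≤ ∑ i ∈ Finset.range n, R * (ρ⁻¹ * ((i : ℝ) ^ 1 * ρ ^ i) * |x - y|) := by
        refine Finset.sum_le_sum fun i _ => ?_
        rw [← mul_sub, abs_mul]
        exact mul_le_mul (hω i) (h2 i) (abs_nonneg _) hR
    _ = R * (ρ⁻¹ * ∑ i ∈ Finset.range n, (i : ℝ) ^ 1 * ρ ^ i) * |x - y| := by
        rw [← Finset.mul_sum, ← Finset.sum_mul, ← Finset.mul_sum, mul_assoc R]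
    _ ≤ _ := by
        gcongr
        exact hs.sum_le_tsum _ fun i _ => by positivity

theorem R_nonneg (h : ∀ᵐ x ∂p, |x| ≤ R) : 0 ≤ R := by
  obtain ⟨x, hx⟩ := h.exists
  exact (abs_nonneg x).trans hx

/-- the series and the finite sums at nearby parameters are close -/
theorem close (h : ∀ᵐ x ∂p, |x| ≤ R) (h0 : 0 < lam) (h1 : lam < 1) :
    ∃ M : ℝ, 0 ≤ M ∧ ∀ᶠ n : ℕ in atTop, ∀ η : ℝ, lam ≤ η → η ≤ lam + lam ^ n →
      η ≤ (1 + lam) / 2 ∧ ∀ᵐ ω ∂PP p, |YY lam ω - TT η n ω| ≤ M * η ^ n := by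
  have hR := R_nonneg h
  obtain ⟨L, hL, hlip⟩ := lip (ρ := (1 + lam) / 2) (by linarith) (by linarith) hR
  have hi : 0 < (1 - lam)⁻¹ := inv_pos.2 (by linarith)
  refine ⟨R * (1 - lam)⁻¹ + L, by positivity, ?_⟩
  have t1 : Tendsto (fun n : ℕ => lam ^ n) atTop (𝓝 0) :=
    tendsto_pow_atTop_nhds_zero_of_lt_one h0.le h1
  filter_upwards [t1.eventually (ge_mem_nhds (show (0 : ℝ) < (1 - lam) / 2 by linarith))]
    with n e1 η a b
  have hρ : η ≤ (1 + lam) / 2 := by linarith
  refine ⟨hρ, ?_⟩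
  filter_upwards [ae_bdd h] with ω hω
  have h2 := tail hω h0.le h1 n
  have h3 := hlip lam η (by rw [abs_of_pos h0]; linarith)
    (by rwa [abs_of_pos (h0.trans_le a)]) n ω hω
  have h4 : |lam - η| ≤ lam ^ n := by rw [abs_sub_comm, abs_of_nonneg (by linarith)]; linarith
  have h5 := abs_sub_le (YY lam ω) (TT lam n ω) (TT η n ω)
  have h6 : lam ^ n ≤ η ^ n := pow_le_pow_left₀ h0.le a n
  have h7 : L * |lam - η| ≤ L * η ^ n := mul_le_mul_of_nonneg_left (h4.trans h6) hL
  have h8 : R * (1 - lam)⁻¹ * lam ^ n ≤ R * (1 - lam)⁻¹ * η ^ n := by gcongr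
  linarith

theorem char_part (η : ℝ) (n : ℕ) (t : ℝ) :
    charFun (part p η n) t = ∏ i ∈ Finset.range n, charFun p (η ^ i * t) := by
  have hi : iIndepFun (fun (i : ℕ) (ω : ℕ → ℝ) => ω i * η ^ i) (PP p) :=
    iIndepFun_infinitePi (P := fun _ : ℕ => p) (X := fun i x => x * η ^ i) (by fun_prop)
  have := (hi.restrict (Finset.range n)).charFun_map_fun_finsetSum_eq_prod
    (fun i _ => Measurable.aemeasurable (by fun_prop))
  unfold part
  rw [this, Finset.prod_apply]
  refine Finset.prod_congr rfl fun i _ => ?_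
  have e : (fun ω : ℕ → ℝ => ω i * η ^ i) = fun ω => η ^ i * ω i := by
    ext ω; ring
  rw [e, charFun_map_mul_comp (measurable_pi_apply i).aemeasurable, Measure.infinitePi_map_eval]

theorem char_tend (h : ∀ᵐ x ∂p, |x| ≤ R) (h0 : 0 ≤ lam) (h1 : lam < 1) (t : ℝ) :
    Tendsto (fun n => ∏ i ∈ Finset.range n, charFun p (lam ^ i * t)) atTop
      (𝓝 (charFun (law p lam) t)) := by
  simp_rw [← char_part, part_eq, law_eq, charFun_apply_real]
  have e : ∀ f : (ℕ → ℝ) → ℝ, Measurable f →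
      ∫ x : ℝ, Complex.exp (t * x * Complex.I) ∂((PP p).map f) =
        ∫ ω, Complex.exp (t * f ω * Complex.I) ∂PP p := fun f hf =>
    integral_map hf.aemeasurable (by fun_prop)
  simp_rw [e _ (meas_TT _ _), e _ (meas_YY _)]
  refine tendsto_integral_of_dominated_convergence (fun _ => 1) (fun n => ?_) (integrable_const _)
    (fun n => ae_of_all _ fun ω => ?_) ?_
  · have := meas_TT lam n
    fun_prop
  · rw [← Complex.ofReal_mul, Complex.norm_exp_ofReal_mul_I]
  · filter_upwards [ae_bdd h] with ω hω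
    have c : Continuous fun x : ℝ => Complex.exp (t * x * Complex.I) := by fun_prop
    exact (c.tendsto _).comp (tend_TT hω h0 h1)

theorem char_law (h : ∀ᵐ x ∂p, |x| ≤ R) (h0 : 0 ≤ lam) (h1 : lam < 1) (t : ℝ) :
    charFun (law p lam) t = charFun p t * charFun (law p lam) (lam * t) := by
  have a := (char_tend h h0 h1 t).comp (tendsto_add_atTop_nat 1)
  have b := (char_tend h h0 h1 (lam * t)).const_mul (charFun p t)
  refine tendsto_nhds_unique a (b.congr fun n => ?_)
  simp only [Function.comp, Finset.prod_range_succ', pow_zero, one_mul, pow_succ, mul_assoc]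
  ring

theorem uniq (h : ∀ᵐ x ∂p, |x| ≤ R) (h0 : 0 ≤ lam) (h1 : lam < 1) {ρ : Measure ℝ}
    [IsFiniteMeasure ρ] (hρ : ∀ t, charFun ρ t = charFun p t * charFun ρ (lam * t)) :
    ρ = ρ Set.univ • law p lam := by
  have : IsFiniteMeasure (ρ Set.univ • law p lam) :=
    Measure.smul_finite _ (measure_ne_top _ _)
  refine Measure.ext_of_charFun (funext fun t => ?_)
  have a : ∀ n, charFun ρ t =
      (∏ i ∈ Finset.range n, charFun p (lam ^ i * t)) * charFun ρ (lam ^ n * t) := by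
    intro n
    induction n with
    | zero => simp
    | succ n ih => rw [ih, hρ (lam ^ n * t), Finset.prod_range_succ, pow_succ', mul_assoc, mul_assoc]
  have t1 : Tendsto (fun n : ℕ => lam ^ n * t) atTop (𝓝 0) := by
    simpa using (tendsto_pow_atTop_nhds_zero_of_lt_one h0 h1).mul_const t
  have b := (char_tend h h0 h1 t).mul (((continuous_charFun (μ := ρ)).tendsto 0).comp t1)
  have c := tendsto_nhds_unique (tendsto_const_nhds (x := charFun ρ t)) (b.congr fun n => (a n).symm)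
  rw [c, charFun_zero, charFun_apply_real (μ := _ • _), integral_smul_measure, ← charFun_apply_real,
    mul_comm, Complex.real_smul]
  rfl

theorem map_ac (h0 : lam ≠ 0) {ν : Measure ℝ} (h : ν ≪ volume) : ν.map (lam * ·) ≪ volume := by
  refine (h.map (by fun_prop)).trans ?_
  rw [Real.map_volume_mul_left h0]
  exact Measure.smul_absolutelyContinuous

/-- the law of pure types -/
theorem pure (h : ∀ᵐ x ∂p, |x| ≤ R) (h0 : 0 < lam) (h1 : lam < 1) :
    law p lam ⟂ₘ volume ∨ law p lam ≪ volume := by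
  set μ := law p lam with hμ
  set a := volume.withDensity (μ.rnDeriv volume) with ha
  set s := μ.singularPart volume with hs
  have e : μ = s + a := μ.haveLebesgueDecomposition_add volume
  have : IsFiniteMeasure a := isFiniteMeasure_of_le μ (Measure.withDensity_rnDeriv_le _ _)
  have e1 : μ = p ∗ μ.map (lam * ·) :=
    Measure.ext_of_charFun (funext fun t => by
      rw [charFun_conv, charFun_map_mul]; exact char_law h h0.le h1 t)
  have e2 : μ = p ∗ s.map (lam * ·) + p ∗ a.map (lam * ·) := by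
    rw [← Measure.conv_add, ← Measure.map_add _ _ (by fun_prop), ← e]
    exact e1
  have ac : p ∗ a.map (lam * ·) ≪ volume :=
    Measure.conv_absolutelyContinuous (map_ac h0.ne' (withDensity_absolutelyContinuous _ _))
  obtain ⟨N, hN, hN1, hN2⟩ := μ.mutuallySingular_singularPart volume
  have le : p ∗ a.map (lam * ·) ≤ a := by
    refine Measure.le_intro fun A hA _ => ?_
    have b1 : (p ∗ a.map (lam * ·)) A = (p ∗ a.map (lam * ·)) (A ∩ N) := by
      rw [← measure_inter_add_sdiff A hN, ac (measure_mono_null (Set.sdiff_subset_compl _ _) hN2),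
        add_zero]
    have b2 : (p ∗ a.map (lam * ·)) (A ∩ N) ≤ μ (A ∩ N) := by
      conv_rhs => rw [e2]
      exact le_add_self
    have b3 : μ (A ∩ N) ≤ a A := by
      conv_lhs => rw [e]
      rw [Measure.add_apply, measure_mono_null Set.inter_subset_right hN1, zero_add]
      exact measure_mono Set.inter_subset_left
    exact b1 ▸ b2.trans b3
  have e3 : p ∗ a.map (lam * ·) = a := by
    refine Measure.eq_of_le_of_measure_univ_eq le ?_
    rw [Measure.conv, Measure.map_apply (by fun_prop) MeasurableSet.univ, Set.preimage_univ,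
      ← Set.univ_prod_univ, Measure.prod_prod, Measure.map_apply (by fun_prop) MeasurableSet.univ]
    simp
  have e4 := uniq h h0.le h1 (ρ := a) fun t => by
    conv_lhs => rw [← e3]
    rw [charFun_conv, charFun_map_mul]
  by_cases hz : a Set.univ = 0
  · left
    rw [e, Measure.measure_univ_eq_zero.1 hz, add_zero]
    exact ⟨N, hN, hN1, hN2⟩
  · right
    refine Measure.AbsolutelyContinuous.trans ?_ (withDensity_absolutelyContinuous volume
      (μ.rnDeriv volume))
    rw [← ha, e4]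
    exact Measure.absolutelyContinuous_smul hz

theorem not_both {μ : Measure ℝ} [IsProbabilityMeasure μ] (h : μ ≪ volume) : ¬ μ ⟂ₘ volume :=
  fun hs => IsProbabilityMeasure.ne_zero μ
    (Measure.eq_zero_of_absolutelyContinuous_of_mutuallySingular h hs)

/-- absolute continuity passes from `lam ^ k` to `lam` -/
theorem ac_of_pow (h : ∀ᵐ x ∂p, |x| ≤ R) (h0 : 0 < lam) (h1 : lam < 1) (k : ℕ)
    (H : law p (lam ^ (k + 1)) ≪ volume) : law p lam ≪ volume := by
  set ν := law p (lam ^ (k + 1)) with hν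
  have a : ∀ j : ℕ, ∃ ρ : Measure ℝ, IsProbabilityMeasure ρ ∧ ρ ≪ volume ∧
      ∀ t, charFun ρ t = ∏ i ∈ Finset.range (j + 1), charFun ν (lam ^ i * t) := by
    intro j
    induction j with
    | zero => exact ⟨ν, inferInstance, H, by simp⟩
    | succ j ih =>
      obtain ⟨ρ, _, h2, h3⟩ := ih
      have : IsProbabilityMeasure (ρ.map (lam * ·)) := Measure.isProbabilityMeasure_map (by fun_prop)
      refine ⟨ν ∗ ρ.map (lam * ·), inferInstance,
        Measure.conv_absolutelyContinuous (map_ac h0.ne' h2), fun t => ?_⟩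
      rw [charFun_conv, charFun_map_mul, h3, Finset.prod_range_succ' _ (j + 1), mul_comm]
      simp only [pow_zero, one_mul, pow_succ, mul_assoc]
  obtain ⟨ρ, _, h2, h3⟩ := a k
  have b := uniq h h0.le h1 (ρ := ρ) fun t => by
    rw [h3, h3, Finset.prod_range_succ', Finset.prod_range_succ, pow_zero, one_mul,
      char_law h (pow_pos h0 (k + 1)).le (pow_lt_one₀ h0.le h1 k.succ_ne_zero) t, ← hν]
    simp only [pow_succ, mul_assoc]
    ring
  rwa [b, measure_univ, one_smul] at h2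

end Vale.Agent.N105C
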