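import Vale.Agent.N105C.Erd
import Vale.Agent.P105.Bdl.B1

open MeasureTheory Filter Topology Polynomial
open scoped ENNReal

namespace Vale.Agent.N105C

theorem conj_iff {β : ℝ} (hi : IsIntegral ℤ β) (z : ℂ) :
    IsConjRoot ℚ (β : ℂ) z ↔ aeval z (minpoly ℚ β) = 0 := by
  have hq : IsIntegral ℚ β := hi.tower_top
  have e : minpoly ℚ (β : ℂ) = minpoly ℚ β := minpoly.algebraMap_eq Complex.ofReal_injective β
  rw [← e]
  exact isConjRoot_iff_aeval_eq_zero (hq.algebraMap (B := ℂ))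

theorem salem_iff {β : ℝ} : Salem β ↔ P105.Salem.IsSalem β :=
  and_congr_right fun _ => and_congr_right fun hi => by simp only [conj_iff hi]

theorem not_pisot {β : ℝ} (h : Salem β) : ¬ Pisot β := by
  rintro ⟨h1, -, h2⟩
  obtain ⟨z, a, b⟩ := h.2.2.2
  refine (h2 z a ?_).ne b
  rintro rfl
  rw [Complex.norm_real, Real.norm_of_nonneg (by linarith)] at b
  linarith

theorem law_fair (lam : ℝ) : law fair lam = P105.bernConv lam := by
  have m : Measurable P105.sgn := measurable_from_top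
  have e : fair = P105.coin.map P105.sgn := by
    unfold fair P105.coin
    rw [Measure.map_add _ _ m, Measure.map_smul, Measure.map_smul, Measure.map_dirac' m,
      Measure.map_dirac' m]
    simp [P105.sgn]
  rw [law_eq, PP, e, ← Measure.infinitePi_map_pi (fun _ : ℕ => P105.coin) fun _ => m,
    Measure.map_map (meas_YY lam) (by fun_prop)]
  rfl

theorem quartic {lam : ℝ} (h0 : 0 < lam) (h : Salem lam⁻¹) (h4 : (minpoly ℚ lam⁻¹).natDegree = 4) :
    law fair lam ⟂ₘ volume :=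
  law_fair lam ▸ P105.Salem.main.1 lam h0 (salem_iff.1 h) h4

theorem irred {A : ℤ} (hA : A = 1 ∨ A = 2) {P : ℤ[X]}
    (hP : P = X ^ 4 - C A * X ^ 3 + C (2 * A - 3) * X ^ 2 - C A * X + 1) :
    P.natDegree = 4 ∧ P.Monic ∧ Irreducible P := by
  have hdeg : P.natDegree = 4 := by rw [hP]; compute_degree!
  have hmon : P.Monic := by rw [hP]; monicity!
  refine ⟨hdeg, hmon, ?_⟩
  rw [hmon.irreducible_iff_natDegree']
  refine ⟨fun h => by rw [h, natDegree_one] at hdeg; omega, fun f g hf hg hfg hmem => ?_⟩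
  rw [hdeg, Finset.mem_Ioc] at hmem
  have hsum : f.natDegree + g.natDegree = 4 := by rw [← hf.natDegree_mul hg, hfg, hdeg]
  have hval : ∀ x : ℤ, f.eval x * g.eval x =
      x ^ 4 - A * x ^ 3 + (2 * A - 3) * x ^ 2 - A * x + 1 := fun x => by
    rw [← eval_mul, hfg, hP]
    simp
  have hg' := hg.coeff_natDegree
  have hf' := hf.coeff_natDegree
  obtain h1 | h2 : g.natDegree = 1 ∨ g.natDegree = 2 := by omega
  · rw [h1] at hg'
    have h3 := hval (-g.coeff 0)
    have h4 : g.eval (-g.coeff 0) = 0 := by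
      rw [eval_eq_sum_range, h1]
      simp [Finset.sum_range_succ, hg']
    rw [h4, mul_zero] at h3
    generalize g.coeff 0 = v at h3
    have h5 : v * (-(v ^ 3 + A * v ^ 2 + (2 * A - 3) * v + A)) = 1 := by linear_combination h3
    rcases Int.eq_one_or_neg_one_of_mul_eq_one h5 with rfl | rfl <;> omega
  · have hf2 : f.natDegree = 2 := by omega
    rw [h2] at hg'
    rw [hf2] at hf'
    have hfe : ∀ x : ℤ, f.eval x = f.coeff 0 + f.coeff 1 * x + x ^ 2 := fun x => by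
      rw [eval_eq_sum_range, hf2]
      simp [Finset.sum_range_succ, hf']
    have hge : ∀ x : ℤ, g.eval x = g.coeff 0 + g.coeff 1 * x + x ^ 2 := fun x => by
      rw [eval_eq_sum_range, h2]
      simp [Finset.sum_range_succ, hg']
    have v0 := hval 0
    have v1 := hval 1
    have v2 := hval (-1)
    rw [hfe, hge] at v0 v1 v2
    generalize f.coeff 0 = v at *
    generalize f.coeff 1 = u at *
    generalize g.coeff 0 = z at *
    generalize g.coeff 1 = w at *
    have w0 : v * z = 1 := by linear_combination v0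
    have w1 : (v + u + 1) * (-(z + w + 1)) = 1 := by linear_combination -v1
    have w2 : (v - u + 1) * (z - w + 1) = 4 * A - 1 := by linear_combination v2
    rcases Int.eq_one_or_neg_one_of_mul_eq_one' w0 with ⟨rfl, rfl⟩ | ⟨rfl, rfl⟩ <;>
      rcases Int.eq_one_or_neg_one_of_mul_eq_one' w1 with ⟨a, b⟩ | ⟨a, b⟩
    · rw [show u = -1 by omega, show w = -3 by omega] at w2; omega
    · rw [show u = -3 by omega, show w = -1 by omega] at w2; omega
    · rw [show u = 1 by omega, show w = -1 by omega] at w2; omega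
    · rw [show u = -1 by omega, show w = 1 by omega] at w2; omega

theorem trace_range {b : ℝ} (h1 : 1 < b) (h2 : b < 2) : 2 < b + b⁻¹ ∧ b + b⁻¹ < 5 / 2 := by
  have h3 : b * b⁻¹ = 1 := mul_inv_cancel₀ (by positivity)
  have h4 : 0 < b⁻¹ := by positivity
  constructor <;> nlinarith

theorem salem_of_root {A : ℤ} (hA : A = 1 ∨ A = 2) {b : ℝ} (h1 : 1 < b) (h2 : b < 2)
    (hb : (b + b⁻¹) ^ 2 - A * (b + b⁻¹) + (2 * A - 5) = 0) :
    Salem b ∧ (minpoly ℚ b).natDegree = 4 := by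
  obtain ⟨P, hP⟩ : ∃ P : ℤ[X],
    P = X ^ 4 - C A * X ^ 3 + C (2 * A - 3) * X ^ 2 - C A * X + 1 := ⟨_, rfl⟩
  obtain ⟨hdeg, hmon, hirr⟩ := irred hA hP
  obtain ⟨y1, y2⟩ := trace_range h1 h2
  have b0 : b ≠ 0 := by positivity
  have h3 : b * b⁻¹ = 1 := mul_inv_cancel₀ b0
  set c := b⁻¹ with hc
  have hr : aeval b P = 0 := by
    rw [hP]
    simp only [map_add, map_sub, map_mul, map_pow, aeval_X, map_one, eq_intCast, map_intCast,
      map_ofNat]
    linear_combination b ^ 2 * hb - (2 * b ^ 2 + b * c + 1 - A * b) * h3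
  have hi : IsIntegral ℤ b := ⟨P, hmon, hr⟩
  have hmin : minpoly ℚ b = P.map (algebraMap ℤ ℚ) :=
    (minpoly.eq_of_irreducible_of_monic
      ((hmon.irreducible_iff_irreducible_map_fraction_map (K := ℚ)).1 hirr)
      (by rwa [aeval_map_algebraMap]) (hmon.map _)).symm
  obtain ⟨t, ht⟩ : ∃ t : ℝ, 2 * t = A - (b + c) := ⟨(A - (b + c)) / 2, by ring⟩
  have t1 : 0 < 1 - t ^ 2 := by rcases hA with rfl | rfl <;> push_cast at ht <;> nlinarith
  have fac : ∀ z : ℂ, aeval z (minpoly ℚ b) = (z - b) * (z - c) * (z ^ 2 - 2 * t * z + 1) := by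
    intro z
    have e1 : (b : ℂ) * c = 1 := by exact_mod_cast h3
    have e2 : 2 * (t : ℂ) = A - (b + c) := by exact_mod_cast ht
    have e3 : ((b : ℂ) + c) ^ 2 - A * (b + c) + (2 * A - 5) = 0 := by exact_mod_cast hb
    rw [hmin, aeval_map_algebraMap, hP, e2]
    simp only [map_add, map_sub, map_mul, map_pow, aeval_X, map_one, eq_intCast, map_intCast,
      map_ofNat]
    linear_combination z ^ 2 * e3 - (z ^ 2 - (A - (b + c)) * z + 1) * e1
  have nrm : ∀ z : ℂ, z ^ 2 - 2 * t * z + 1 = 0 → ‖z‖ = 1 := fun z hz => by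
    have re := congrArg Complex.re hz
    have im := congrArg Complex.im hz
    simp [pow_two] at re im
    have : z.im * (z.re - t) = 0 := by linarith
    have e : ‖z‖ ^ 2 = 1 := by
      rw [Complex.sq_norm, Complex.normSq_apply]
      rcases mul_eq_zero.1 this with h | h
      · rw [h] at re
        nlinarith [sq_nonneg (z.re - t)]
      · rw [← sub_eq_zero.1 h] at re
        linarith
    exact (pow_eq_one_iff_of_nonneg (norm_nonneg _) two_ne_zero).1 e
  refine ⟨⟨h1, hi, fun z hz hzb => ?_, ?_⟩, by rw [hmin, hmon.natDegree_map, hdeg]⟩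
  · rw [conj_iff hi, fac, mul_eq_zero, mul_eq_zero, sub_eq_zero, sub_eq_zero] at hz
    rcases hz with (h | h) | h
    · exact absurd h hzb
    · rw [h, Complex.norm_real, Real.norm_of_nonneg (by positivity)]
      exact inv_le_one_of_one_le₀ h1.le
    · exact (nrm z h).le
  · obtain ⟨r, hr⟩ : ∃ r : ℝ, r ^ 2 = 1 - t ^ 2 := ⟨_, Real.sq_sqrt t1.le⟩
    have e : ((t : ℂ) + r * Complex.I) ^ 2 - 2 * t * (t + r * Complex.I) + 1 = 0 := by
      have e1 : (r : ℂ) ^ 2 = 1 - t ^ 2 := by exact_mod_cast hr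
      linear_combination r ^ 2 * Complex.I_sq - e1
    exact ⟨_, by rw [conj_iff hi, fac, e, mul_zero], nrm _ e⟩

theorem root_of_salem {b : ℝ} (h : Salem b) (h4 : (minpoly ℚ b).natDegree = 4) (h2 : b < 2) :
    ∃ A : ℤ, (A = 1 ∨ A = 2) ∧ (b + b⁻¹) ^ 2 - A * (b + b⁻¹) + (2 * A - 5) = 0 := by
  obtain ⟨hi, ζ, hζ, H⟩ := P105.Salem.exists_zeta_of_salem (salem_iff.1 h) h4
  obtain ⟨y1, y2⟩ := trace_range h.1 h2
  obtain ⟨A, hA⟩ := H 1
  obtain ⟨B, hB⟩ := H 2
  have h3 : b * b⁻¹ = 1 := mul_inv_cancel₀ (by linarith [h.1])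
  have n1 : ζ.re ^ 2 + ζ.im ^ 2 = 1 := by
    have := Complex.sq_norm ζ
    rw [hζ, Complex.normSq_apply] at this
    linarith
  rw [zpow_neg, zpow_one, zpow_one] at hA
  rw [zpow_neg, zpow_two, zpow_two, mul_inv, Complex.mul_re] at hB
  have iy : IsIntegral ℤ (b + b⁻¹) := h.2.1.add hi
  set y := b + b⁻¹ with hy
  have e1 : y * (A - y) = algebraMap ℚ ℝ ((A ^ 2 - B - 4) / 2) := by
    simp only [eq_ratCast]
    push_cast
    rw [← hA, ← hB, hy]
    linear_combination -h3 - n1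
  have i2 : IsIntegral ℤ (y * (A - y)) := iy.mul ((isIntegral_algebraMap (x := A)).sub iy)
  rw [e1] at i2
  obtain ⟨c, hc⟩ := IsIntegrallyClosed.isIntegral_iff.1
    ((isIntegral_algebraMap_iff (algebraMap ℚ ℝ).injective).1 i2)
  rw [← hc] at e1
  simp only [eq_intCast, eq_ratCast, Rat.cast_intCast] at e1
  have r1 : -1 ≤ ζ.re := by nlinarith [sq_nonneg ζ.im]
  have r2 : ζ.re ≤ 1 := by nlinarith [sq_nonneg ζ.im]
  have r3 : ζ.re < 1 := lt_of_le_of_ne r2 fun e => by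
    have a : (4 : ℝ) < A := by linarith
    have a' : (A : ℝ) < 5 := by linarith
    have : 4 < A := by exact_mod_cast a
    have : A < 5 := by exact_mod_cast a'
    omega
  have p1 : (4 - 2 * A + c : ℝ) < 0 := by rw [← e1, ← hA]; nlinarith
  have p2 : (0 : ℝ) ≤ 4 + 2 * A + c := by rw [← e1, ← hA]; nlinarith
  have p3 : (0 : ℝ) < 25 - 10 * A + 4 * c := by rw [← e1, ← hA]; nlinarith
  have q1 : 4 - 2 * A + c < 0 := by exact_mod_cast p1
  have q2 : 0 ≤ 4 + 2 * A + c := by exact_mod_cast p2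
  have q3 : 0 < 25 - 10 * A + 4 * c := by exact_mod_cast p3
  refine ⟨A, by omega, ?_⟩
  obtain rfl : c = 2 * A - 5 := by omega
  push_cast at e1
  linear_combination -e1

theorem quartic_iff {lam : ℝ} (h0 : 1 / 2 < lam) (h1 : lam < 1) :
    Salem lam⁻¹ ∧ (minpoly ℚ lam⁻¹).natDegree = 4 ↔
      lam ^ 4 - lam ^ 3 - lam ^ 2 - lam + 1 = 0 ∨
        lam ^ 4 - 2 * lam ^ 3 + lam ^ 2 - 2 * lam + 1 = 0 := by
  have l0 : 0 < lam := by linarith
  have b1 : 1 < lam⁻¹ := (one_lt_inv₀ l0).2 h1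
  have b2 : lam⁻¹ < 2 := inv_lt_of_inv_lt₀ (by norm_num) (by linarith)
  have e : ∀ A : ℝ, (lam⁻¹ + lam⁻¹⁻¹) ^ 2 - A * (lam⁻¹ + lam⁻¹⁻¹) + (2 * A - 5) =
      (lam ^ 4 - A * lam ^ 3 + (2 * A - 3) * lam ^ 2 - A * lam + 1) / lam ^ 2 := fun A => by
    field_simp
    ring
  constructor
  · rintro ⟨a, b⟩
    obtain ⟨A, hA, c⟩ := root_of_salem a b b2
    rw [e, div_eq_zero_iff, or_iff_left (by positivity)] at c
    rcases hA with rfl | rfl <;> push_cast at c
    · left; linarith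
    · right; linarith
  · rintro (a | a)
    · refine salem_of_root (A := 1) (.inl rfl) b1 b2 ?_
      rw [e, div_eq_zero_iff]; left; push_cast; linarith
    · refine salem_of_root (A := 2) (.inr rfl) b1 b2 ?_
      rw [e, div_eq_zero_iff]; left; push_cast; linarith

theorem roots_exist :
    (∃ lam ∈ Set.Ioo (0.58 : ℝ) 0.59, lam ^ 4 - lam ^ 3 - lam ^ 2 - lam + 1 = 0) ∧
      ∃ lam ∈ Set.Ioo (0.53 : ℝ) 0.54, lam ^ 4 - 2 * lam ^ 3 + lam ^ 2 - 2 * lam + 1 = 0 :=
  ⟨intermediate_value_Ioo' (f := fun x : ℝ => x ^ 4 - x ^ 3 - x ^ 2 - x + 1) (by norm_num)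
    (by fun_prop) ⟨by norm_num, by norm_num⟩,
   intermediate_value_Ioo' (f := fun x : ℝ => x ^ 4 - 2 * x ^ 3 + x ^ 2 - 2 * x + 1) (by norm_num)
    (by fun_prop) ⟨by norm_num, by norm_num⟩⟩

end Vale.Agent.N105C
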