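import Vale.Agent.N105C.Crit
import Vale.Agent.N105C.Quart
import Vale.Agent.P105Z.Units

open MeasureTheory Metric Filter Topology ProbabilityTheory
open scoped ENNReal NNReal

namespace Vale.Agent.N105C

variable {p : Measure ℝ} [IsProbabilityMeasure p] {R lam : ℝ}

theorem has_law (h : ∀ᵐ x ∂p, |x| ≤ R) (h0 : 0 < lam) (h1 : lam < 1) {Ω : Type}
    [MeasurableSpace Ω] {P : Measure Ω} {ε : ℕ → Ω → ℝ} (hi : iIndepFun ε P)
    (hl : ∀ n, HasLaw (ε n) p P) : (∀ᵐ ω ∂P, Summable fun n => ε n ω * lam ^ n) ∧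
      HasLaw (fun ω => ∑' n, ε n ω * lam ^ n) (law p lam) P := by
  have a := hi.hasLaw_infinitePi hl (aemeasurable_pi_iff.2 fun n => (hl n).aemeasurable)
  refine ⟨?_, (HasLaw.mk (meas_YY lam).aemeasurable (law_eq p lam).symm).comp a⟩
  have b := ae_bdd h
  rw [PP, ← a.map_eq] at b
  filter_upwards [ae_of_ae_map a.aemeasurable b] with ω hω using summ hω h0.le h1

theorem near_ne (h0 : 1 / 2 ≤ lam) (h1 : lam < 1) : ∀ᶠ n in atTop, (near lam n).Nonempty := by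
  filter_upwards [eventually_ge_atTop 1, (tendsto_pow_atTop_nhds_zero_of_lt_one
    (by linarith : 0 ≤ lam) h1).eventually (gt_mem_nhds (show (0 : ℝ) < 1 - lam by linarith))]
    with n a b
  obtain ⟨η, c, d, e⟩ := P105Z.exists_root h0 h1 a
  exact ⟨η, ⟨by linarith, by linarith, e⟩, c, d⟩

theorem sing_iff (h : ∀ᵐ x ∂p, |x| ≤ R) (h0 : 1 / 2 ≤ lam) (h1 : lam < 1) {θ : ℝ} (t0 : 0 < θ)
    (t1 : θ < 1) : law p lam ⟂ₘ volume ↔
      ∀ K : ℕ, ∃ n, ∃ η ∈ near lam n, θ ≤ (part p η n).real {x | (K : ℝ≥0) ≤ dens p η n x} := by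
  have l0 : 0 < lam := by linarith
  have e : ∀ (K n : ℕ) {η : ℝ}, lam ≤ η →
      (θ ≤ (part p η n).real {x | (K : ℝ≥0) ≤ dens p η n x} ↔
      ENNReal.ofReal θ ≤ part p η n {x | (K : ℝ≥0∞) ≤ dE p η n x}) := fun K n η a => by
    rw [Measure.real, ← ENNReal.ofReal_le_iff_le_toReal (measure_ne_top _ _)]
    simp only [← coe_dens (l0.trans_le a), ← ENNReal.coe_natCast, ENNReal.coe_le_coe]
  constructor
  · intro hs K
    obtain ⟨n, ⟨η, a⟩, b⟩ := ((near_ne h0 h1).and (crowd_of_sing h l0 h1 hs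
      (ENNReal.ofReal_lt_one.2 t1) (ENNReal.natCast_ne_top K))).exists
    exact ⟨n, η, a, (e K n a.2.1).2 (b η a.2.1 a.2.2)⟩
  · intro H
    refine (pure h l0 h1).resolve_right (not_ac_of_crowd h l0 h1 (ENNReal.ofReal_pos.2 t0)
      fun K N => ?_)
    obtain ⟨n, η, a, b⟩ := H (max K (2 ^ N))
    obtain ⟨c, d⟩ := large (ENNReal.ofReal_pos.2 t0) (h0.trans a.2.1) ((e _ n a.2.1).1 b)
    exact ⟨n, c, η, a.2.1, a.2.2, d⟩

theorem den_iff (h : ∀ᵐ x ∂p, |x| ≤ R) (h0 : 1 / 2 ≤ lam) (h1 : lam < 1) {φ : ℝ≥0 → ℝ≥0}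
    (hφ : Gauge φ) : (∃ f : ℝ → ℝ≥0, Measurable f ∧ law p lam = volume.withDensity (f ·) ∧
      ∫⁻ x, f x * φ (f x) < ∞) ↔
      ∃ C : ℝ≥0, ∃ᶠ n in atTop, ∃ η ∈ near lam n, ∫⁻ x, φ (dens p η n x) ∂part p η n ≤ C := by
  have l0 : 0 < lam := by linarith
  obtain ⟨hm, ⟨D, hD⟩, hf, hu⟩ := ext_prop hφ
  have e : ∀ (n : ℕ) {η : ℝ}, lam ≤ η → ∫⁻ x, ext φ (dE p η n x) ∂part p η n =
      ∫⁻ x, φ (dens p η n x) ∂part p η n := fun n η a => by
    simp only [← coe_dens (l0.trans_le a), ext_coe hφ.1]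
  constructor
  · rintro ⟨f, -, a, b⟩
    obtain ⟨C, hC, H⟩ := bdd_of_den h l0 h1 hm hD ENNReal.coe_ne_top hf a
      (by simpa only [ext_coe hφ.1] using b)
    lift C to ℝ≥0 using hC
    exact ⟨C, (((near_ne h0 h1).and H).mono fun n ⟨⟨η, c⟩, d⟩ =>
      ⟨η, c, e n c.2.1 ▸ d η c.2.1 c.2.2⟩).frequently⟩
  · rintro ⟨C, H⟩
    obtain ⟨a, b⟩ := den_of_bdd h l0 h1 hm hD ENNReal.coe_ne_top hf hu ENNReal.coe_ne_top
      (H.mono fun n ⟨η, c, d⟩ => ⟨η, c.2.1, c.2.2, (e n c.2.1).symm ▸ d⟩)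
    have c : (fun x => (((law p lam).rnDeriv volume x).toNNReal : ℝ≥0∞)) =ᵐ[volume]
        (law p lam).rnDeriv volume := (Measure.rnDeriv_ne_top _ _).mono fun x =>
      ENNReal.coe_toNNReal
    refine ⟨fun x => ((law p lam).rnDeriv volume x).toNNReal,
      (Measure.measurable_rnDeriv _ _).ennreal_toNNReal, ?_, b.trans_eq' ?_⟩
    · rw [withDensity_congr_ae c, Measure.withDensity_rnDeriv_eq _ _ a]
    · refine lintegral_congr_ae (c.mono fun x hx => ?_)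
      simp only [← ext_coe hφ.1] at hx ⊢
      rw [hx]

theorem sup_iff (h : ∀ᵐ x ∂p, |x| ≤ R) (h0 : 1 / 2 ≤ lam) (h1 : lam < 1) :
    (∃ C : ℝ≥0, law p lam ≤ C • volume) ↔
      ∃ C : ℝ≥0, ∃ᶠ n in atTop, ∃ η ∈ near lam n, ∀ x, dens p η n x ≤ C := by
  have l0 : 0 < lam := by linarith
  constructor
  · rintro ⟨C, a⟩
    obtain ⟨C, hC, H⟩ := sup_of_le h l0 h1 (C := C) ENNReal.coe_ne_top a
    lift C to ℝ≥0 using hC
    exact ⟨C, (((near_ne h0 h1).and H).mono fun n ⟨⟨η, c⟩, d⟩ => ⟨η, c, fun x =>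
      ENNReal.coe_le_coe.1 (coe_dens (p := p) c.1.1 n x ▸ d η c.2.1 c.2.2 x)⟩).frequently⟩
  · rintro ⟨C, H⟩
    obtain ⟨C, hC, a⟩ := le_of_sup h l0 h1 (C := C) ENNReal.coe_ne_top
      (H.mono fun n ⟨η, c, d⟩ => ⟨η, c.2.1, c.2.2, fun x =>
        coe_dens (p := p) c.1.1 n x ▸ ENNReal.coe_le_coe.2 (d x)⟩)
    lift C to ℝ≥0 using hC
    exact ⟨C, a⟩

theorem gauge_pow {a : ℝ} (h : 0 < a) : Gauge (· ^ a) :=
  ⟨fun _ _ c => NNReal.rpow_le_rpow c h.le, NNReal.tendsto_coe_atTop.1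
    ((tendsto_rpow_atTop h).comp (NNReal.tendsto_coe_atTop.2 tendsto_id)), 2 ^ a,
    fun _ => NNReal.mul_rpow.le⟩

theorem gauge_log : Gauge fun t => (Real.log (1 + t)).toNNReal := by
  refine ⟨fun a b c => Real.toNNReal_le_toNNReal (Real.log_le_log (by positivity) (by simpa)),
    tendsto_real_toNNReal_atTop.comp (Real.tendsto_log_atTop.comp
      (tendsto_atTop_add_const_left _ _ (NNReal.tendsto_coe_atTop.2 tendsto_id))), 2, fun t => ?_⟩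
  have a : Real.log (1 + (2 * t : ℝ≥0)) ≤ 2 * Real.log (1 + t) := by
    rw [← Real.log_rpow (by positivity), Real.rpow_two]
    refine Real.log_le_log (by positivity) ?_
    push_cast
    nlinarith [sq_nonneg (t : ℝ)]
  refine (Real.toNNReal_le_toNNReal a).trans_eq ?_
  rw [Real.toNNReal_mul zero_le_two]
  simp

theorem lip_YY (h : ∀ᵐ x ∂p, |x| ≤ R) {ρ : ℝ} (h0 : 0 < ρ) (h1 : ρ < 1) :
    ∃ L : ℝ, 0 ≤ L ∧ ∀ x y : ℝ, 0 ≤ x → x ≤ ρ → 0 ≤ y → y ≤ ρ →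
      ∀ᵐ ω ∂PP p, |YY x ω - YY y ω| ≤ L * |x - y| := by
  obtain ⟨L, hL, H⟩ := lip h0 h1 (R_nonneg h)
  refine ⟨L, hL, fun x y a b c d => ?_⟩
  filter_upwards [ae_bdd h] with ω hω
  exact le_of_tendsto' ((tend_TT hω a (b.trans_lt h1)).sub (tend_TT hω c (d.trans_lt h1))).abs
    fun n => H x y (by rwa [abs_of_nonneg a]) (by rwa [abs_of_nonneg c]) n ω hω

theorem gdelta (h : ∀ᵐ x ∂p, |x| ≤ R) : IsGδ (sing p) := by
  set G : ℕ → Set ℝ := fun k => {lam | 0 < lam ∧ lam < 1 ∧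
    ∃ U : Set ℝ, IsOpen U ∧ volume U < (k : ℝ≥0∞)⁻¹ ∧ 2⁻¹ < law p lam U} with hG
  have e : sing p = ⋂ k, G k := by
    ext lam
    rw [Set.mem_iInter]
    constructor
    · rintro ⟨h0, h1, s, hsm, hs1, hs2⟩ k
      obtain ⟨U, hsU, hU, hUv⟩ := Set.exists_isOpen_lt_of_lt (μ := volume) sᶜ (k : ℝ≥0∞)⁻¹
        (by rw [hs2]; simp)
      refine ⟨h0, h1, U, hU, hUv, lt_of_lt_of_le ?_ (measure_mono hsU)⟩
      rw [prob_compl_eq_one_sub hsm, hs1, tsub_zero]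
      norm_num
    · intro H
      obtain ⟨h0, h1, -⟩ := H 0
      refine ⟨h0, h1, (pure h h0 h1).resolve_right fun ac => ?_⟩
      obtain ⟨δ, hδ, hd⟩ := exists_pos_setLIntegral_lt_of_measure_lt (μ := volume)
        (f := (law p lam).rnDeriv volume) (Measure.lintegral_rnDeriv_lt_top _ _).ne
        (ε := 2⁻¹) (by norm_num)
      obtain ⟨k, hk⟩ := ENNReal.exists_inv_nat_lt hδ.ne'
      obtain ⟨-, -, U, hU, a, b⟩ := H k
      have c := hd U (a.trans hk)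
      rw [← withDensity_apply _ hU.measurableSet, Measure.withDensity_rnDeriv_eq _ _ ac] at c
      exact lt_asymm b c
  rw [e]
  refine IsGδ.iInter_of_isOpen fun k => isOpen_iff_mem_nhds.2 ?_
  rintro lam ⟨h0, h1, U, hU, a, b⟩
  obtain ⟨C, hCU, hC, hC1⟩ := hU.exists_lt_isCompact b
  obtain ⟨δ, hδ, hth⟩ := hC.exists_cthickening_subset_open hU hCU
  obtain ⟨L, hL, H⟩ := lip_YY h (ρ := (1 + lam) / 2) (by linarith) (by linarith)
  have t : ∀ᶠ x in 𝓝 lam, L * |lam - x| < δ :=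
    ContinuousAt.eventually_lt (by fun_prop) continuousAt_const (by simpa using hδ)
  filter_upwards [t, Ioo_mem_nhds h0 (show lam < (1 + lam) / 2 by linarith)] with x hx hx'
  refine ⟨hx'.1, by linarith [hx'.2], U, hU, a, hC1.trans_le ?_⟩
  refine couple (meas_YY _) (meas_YY _) (H lam x h0.le (by linarith) hx'.1.le hx'.2.le)
    hC.measurableSet hU.measurableSet fun z hz y hy => hth ?_
  exact mem_cthickening_of_dist_le y z _ C hz (by rw [dist_comm, Real.dist_eq]; linarith)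

theorem baire {S T : Set ℝ} (hS : IsGδ S) (hT : T ⊆ S) (hne : T.Nonempty) (hp : Preperfect T) :
    ∃ x ∈ S ∩ closure T, Transcendental ℚ x := by
  have := (hS.inter (isClosed_closure (s := T)).isGδ).baireSpace_of_t2Space_locallyCompactSpace
  obtain ⟨t, ht⟩ := hne
  have : Nonempty ↥(S ∩ closure T) := ⟨⟨t, hT ht, subset_closure ht⟩⟩
  have d := dense_biInter_of_isOpen (X := ↥(S ∩ closure T)) (S := {a : ℝ | IsAlgebraic ℚ a})
    (f := fun a => {x | x.1 ≠ a})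
    (fun a _ => isOpen_ne_fun continuous_subtype_val continuous_const)
    (Algebraic.countable ℚ ℝ) fun a _ => by
      rw [dense_iff_inter_open]
      rintro _ ⟨U, hU, rfl⟩ ⟨x, hx⟩
      obtain ⟨y, hy, hyT⟩ := mem_closure_iff.1 x.2.2 U hU hx
      by_cases e : y = a
      · obtain ⟨z, hz, hz'⟩ := preperfect_iff_nhds.1 hp y hyT U (hU.mem_nhds hy)
        exact ⟨⟨z, hT hz.2, subset_closure hz.2⟩, hz.1, e ▸ hz'⟩
      · exact ⟨⟨y, hT hyT, subset_closure hyT⟩, hy, e⟩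
  obtain ⟨x, hx⟩ := d.nonempty
  exact ⟨x.1, x.2, fun ha => Set.mem_iInter₂.1 hx x.1 ha rfl⟩

theorem sing_pow (h : ∀ᵐ x ∂p, |x| ≤ R) {lam : ℝ} (hs : lam ∈ sing p) {k : ℕ} (hk : k ≠ 0) :
    lam ^ k ∈ sing p := by
  obtain ⟨k, rfl⟩ := Nat.exists_eq_succ_of_ne_zero hk
  obtain ⟨h0, h1, hs⟩ := hs
  have a := pow_pos h0 (k + 1)
  have b := pow_lt_one₀ h0.le h1 hk
  exact ⟨a, b, (pure h a b).resolve_right fun ac => not_both (ac_of_pow h h0 h1 k ac) hs⟩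

end Vale.Agent.N105C
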